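import Vale.Agent.P073.H248.Induct
import Vale.Agent.P073.ALXG.Generic
import Vale.Agent.P073.SCH.LocConeImage

/-!
# P073, block ALX (helper248): Alexander's theorem from the stack theorem and the box step
-/

open Set Metric Topology Filter

namespace P073.H248

open P073.ALX (P V slice AmbStd SpecALX SpecALX3)
open P073.H240 (Share StackR Gam)
open P073.ALXG (BoxStk)

theorem locCone_sphere_pi (n : ℕ) (hn : 0 < n) : LocCone (sphere (0 : Fin n → ℝ) 1) := by
  have : Nonempty (Fin n) := ⟨⟨0, hn⟩⟩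
  have h1 : sphere (0 : Fin n → ℝ) 1 = frontier (closedBall 0 1) :=
    (frontier_closedBall _ one_ne_zero).symm
  rw [h1]
  exact (locCone_closedBall_pi n 1).frontier

theorem conSphere_isCompact {E : Type*} [NormedAddCommGroup E] [NormedSpace ℝ E] {n : ℕ}
    {S : Set E} (h : ConSphere n S) : IsCompact S := by
  obtain ⟨φ⟩ := h
  exact φ.symm.isCompact_right (isCompact_sphere _ _)

theorem conSphere_locCone {E : Type*} [NormedAddCommGroup E] [NormedSpace ℝ E] {n : ℕ}
    {S : Set E} (h : ConSphere n S) : LocCone S := by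
  obtain ⟨φ⟩ := h
  exact LocCone.of_conHomeo (isCompact_sphere _ _) (locCone_sphere_pi _ (Nat.succ_pos n)) φ.symm

/-- **Alexander's theorem** in `Fin 3 → ℝ`, from its parts -/
theorem specALX3_of (hBox : SpecBox) (hSlab : SpecSlab) (hDirs : SpecDirs)
    (hST : H240.SpecStack Share) : SpecALX3 := by
  intro S hS
  obtain ⟨Φ, b, hB, hb⟩ := ALXG.exists_boxStk (conSphere_isCompact hS) (conSphere_locCone hS)
  have h1 : ConSphere 2 (Φ.toFun '' S) := conSphere_image hS Φ (subset_univ _)
  obtain ⟨Ψ, hΨ⟩ := ambStd_of_boxStk hBox hSlab hDirs hST hB _ (fun _ _ => Iff.rfl) h1 ∅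
    (StkUp.top b fun p hp => (hb p hp).le) (Or.inr rfl)
  refine ⟨Φ.trans Ψ, ?_⟩
  rw [ConHomeo.trans_toFun, image_comp]; exact hΨ

/-- **Alexander's theorem** in `(ℝ × ℝ) × ℝ`, from its parts -/
theorem specALX_of (hBox : SpecBox) (hSlab : SpecSlab) (hDirs : SpecDirs)
    (hST : H240.SpecStack Share) : SpecALX := by
  intro S hS
  obtain ⟨Ψ, hΨ⟩ := specALX3_of hBox hSlab hDirs hST (toV3.toFun '' S)
    (conSphere_image hS toV3 (subset_univ _))
  refine ⟨toV3.trans Ψ, ?_⟩
  rw [ConHomeo.trans_toFun, image_comp]; exact hΨ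

end P073.H248
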