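import Vale.Agent.P073.H248.Norm
import Vale.Agent.P073.TR.Level2

/-!
# P073, block ALX-RED (helper248): the link of a conical 2-sphere is a conical circle
-/

open Set Metric Topology Filter

namespace P073.H248

variable {E F G : Type*} [NormedAddCommGroup E] [NormedSpace ℝ E]
  [NormedAddCommGroup F] [NormedSpace ℝ F] [NormedAddCommGroup G] [NormedSpace ℝ G]

/-- `S` is a cone with vertex `x` inside the closed ball of radius `ρ` -/
def ConeIn (S : Set E) (x : E) (ρ : ℝ) : Prop :=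
  ∀ v : E, ‖v‖ ≤ ρ → ∀ t ∈ Ioc (0:ℝ) 1, (x + t • v ∈ S ↔ x + v ∈ S)

theorem ConeIn.mono {S : Set E} {x : E} {ρ ρ' : ℝ} (h : ConeIn S x ρ) (hle : ρ' ≤ ρ) :
    ConeIn S x ρ' := fun v hv => h v (hv.trans hle)

/-- any rescaling inside the ball -/
theorem ConeIn.iff {S : Set E} {x : E} {ρ : ℝ} (h : ConeIn S x ρ) {v : E} (hv : ‖v‖ ≤ ρ) {s : ℝ}
    (hs : 0 < s) (hsv : ‖s • v‖ ≤ ρ) : x + s • v ∈ S ↔ x + v ∈ S := by
  rcases le_or_gt s 1 with h1 | h1
  · exact h v hv s ⟨hs, h1⟩
  · have h2 := h (s • v) hsv s⁻¹ ⟨inv_pos.2 hs, inv_le_one_of_one_le₀ h1.le⟩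
    rw [smul_smul, inv_mul_cancel₀ hs.ne', one_smul] at h2
    exact h2.symm

theorem conSphere_of_conHomeo {n : ℕ} {X : Set E} {Y : Set F} (h : ConSphere n X)
    (φ : ConHomeo X Y) : ConSphere n Y := by
  obtain ⟨ψ⟩ := h
  exact ⟨φ.symm.trans ψ⟩

theorem conSphere_image {n : ℕ} {X : Set E} (h : ConSphere n X) {U : Set E} {V : Set F}
    (φ : ConHomeo U V) (hX : X ⊆ U) : ConSphere n (φ.toFun '' X) := by
  obtain ⟨ψ⟩ := h
  exact ⟨(φ.restr ψ.conicalSet_left hX).symm.trans ψ⟩

/-- homothety -/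
noncomputable def homoth (x : E) {s : ℝ} (hs : s ≠ 0) : ConHomeo (univ : Set E) (univ : Set E) where
  toFun y := x + s • (y - x)
  invFun y := x + s⁻¹ • (y - x)
  mapsTo := mapsTo_univ _ _
  mapsTo_inv := mapsTo_univ _ _
  left_inv y _ := by
    simp only [add_sub_cancel_left, smul_smul, inv_mul_cancel₀ hs, one_smul]; abel
  right_inv y _ := by
    simp only [add_sub_cancel_left, smul_smul, mul_inv_cancel₀ hs, one_smul]; abel
  cont := Continuous.continuousOn (by fun_prop)
  cont_inv := Continuous.continuousOn (by fun_prop)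
  conical := (conicalOn_const x cu).add
    (((conicalOn_id cu).sub (conicalOn_const x cu)).const_smul s)

@[simp] theorem homoth_toFun (x : E) {s : ℝ} (hs : s ≠ 0) (y : E) :
    (homoth x hs).toFun y = x + s • (y - x) := rfl

theorem ConeIn.image_sphere {S : Set E} {x : E} {ρ c : ℝ} (h : ConeIn S x ρ) (hc : 0 < c)
    (hcρ : c ≤ ρ) : (homoth x (div_pos (hc.trans_le hcρ) hc).ne').toFun '' (S ∩ sphere x c) =
      S ∩ sphere x ρ := by
  have hρ : 0 < ρ := hc.trans_le hcρ
  ext y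
  constructor
  · rintro ⟨z, ⟨hzS, hz⟩, rfl⟩
    rw [mem_sphere, dist_eq_norm] at hz
    have hn : ‖(ρ / c) • (z - x)‖ = ρ := by
      rw [norm_smul, Real.norm_of_nonneg (div_pos hρ hc).le, hz]; field_simp
    refine ⟨?_, ?_⟩
    · have h1 := h.iff (v := z - x) (hz.le.trans hcρ) (div_pos hρ hc) hn.le
      rw [homoth_toFun, h1, add_sub_cancel]; exact hzS
    · rw [homoth_toFun, mem_sphere, dist_eq_norm, add_sub_cancel_left]; exact hn
  · rintro ⟨hyS, hy⟩
    rw [mem_sphere, dist_eq_norm] at hy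
    have hn : ‖(c / ρ) • (y - x)‖ = c := by
      rw [norm_smul, Real.norm_of_nonneg (div_pos hc hρ).le, hy]; field_simp
    refine ⟨x + (c / ρ) • (y - x), ⟨?_, ?_⟩, ?_⟩
    · have h1 := h.iff (v := y - x) hy.le (div_pos hc hρ) (hn.le.trans hcρ)
      rw [h1, add_sub_cancel]; exact hyS
    · rw [mem_sphere, dist_eq_norm, add_sub_cancel_left]; exact hn
    · rw [homoth_toFun, add_sub_cancel_left, smul_smul]
      have : ρ / c * (c / ρ) = 1 := by field_simp
      rw [this, one_smul, add_sub_cancel]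

/-- **local chart** of a conical 2-sphere -/
theorem exists_chart_sphere {S : Set E} (hS : ConSphere 2 S) {x : E} (hx : x ∈ S) :
    ∃ (H : Submodule ℝ (Fin 3 → ℝ)) (U : Set H) (N : Set E) (κ : ConHomeo U N),
      Module.finrank ℝ H = 2 ∧ IsOpen U ∧ 0 ∈ U ∧ κ.toFun 0 = x ∧ N ⊆ S ∧ N ∈ 𝓝[S] x := by
  obtain ⟨ψ⟩ := hS
  have hθ : ‖ψ.toFun x‖ = 1 := by
    have := ψ.mapsTo hx
    rwa [mem_sphere_zero_iff_norm] at this
  obtain ⟨H, U, V, κ, hfr, hU, h0, hκ0, hV, hVn⟩ := (normCon_pi 3).exists_chart hθ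
  have hfr' : Module.finrank ℝ H = 2 := by
    have : Module.finrank ℝ (Fin 3 → ℝ) = 3 := by simp
    omega
  refine ⟨H, U, ψ.invFun '' V, κ.trans (ψ.symm.restr κ.conicalSet_right hV), hfr', hU, h0, ?_, ?_,
    ?_⟩
  · show ψ.invFun (κ.toFun 0) = x
    rw [hκ0, ψ.left_inv hx]
  · rintro _ ⟨v, hv, rfl⟩
    exact ψ.mapsTo_inv (hV hv)
  · have h1 : Tendsto ψ.toFun (𝓝[S] x) (𝓝[sphere 0 1] (ψ.toFun x)) :=
      (ψ.cont x hx).tendsto_nhdsWithin ψ.mapsTo
    have h2 := h1.eventually (show ∀ᶠ z in 𝓝[sphere 0 1] (ψ.toFun x), z ∈ V from hVn)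
    filter_upwards [h2, self_mem_nhdsWithin] with z hz hzS
    exact ⟨_, hz, ψ.left_inv hzS⟩

/-- small punctured balls of a 2-dimensional space are connected, in the form we need -/
theorem exists_punctured {H : Type*} [NormedAddCommGroup H] [NormedSpace ℝ H]
    (hH : 1 < Module.rank ℝ H) {δ : ℝ} (hδ : 0 < δ) : IsConnected (ball (0:H) δ \ {0}) := by
  set σ : H → H := fun h => (δ / (1 + ‖h‖)) • h with hσ
  have hc : Continuous σ := by
    rw [hσ]
    refine Continuous.smul (Continuous.div continuous_const (by fun_prop) fun h => ?_) continuous_id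
    positivity
  have h1 : IsConnected ({0}ᶜ : Set H) := isConnected_compl_singleton_of_one_lt_rank hH 0
  have h2 : σ '' ({0}ᶜ : Set H) = ball 0 δ \ {0} := by
    ext y
    constructor
    · rintro ⟨h, hh, rfl⟩
      have hh0 : h ≠ 0 := hh
      have hpos : 0 < δ / (1 + ‖h‖) := by positivity
      refine ⟨?_, ?_⟩
      · rw [mem_ball_zero_iff, hσ]
        simp only
        rw [norm_smul, Real.norm_of_nonneg hpos.le, div_mul_eq_mul_div, div_lt_iff₀ (by positivity)]
        nlinarith [norm_nonneg h]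
      · simp only [hσ, mem_singleton_iff, smul_eq_zero, not_or]
        exact ⟨hpos.ne', hh0⟩
    · rintro ⟨hy, hy0⟩
      rw [mem_ball_zero_iff] at hy
      have hp : 0 < δ - ‖y‖ := by linarith
      have hy0' : y ≠ 0 := hy0
      refine ⟨(δ - ‖y‖)⁻¹ • y, ?_, ?_⟩
      · simp only [mem_compl_iff, mem_singleton_iff, smul_eq_zero, not_or]
        exact ⟨(inv_pos.2 hp).ne', hy0'⟩
      · simp only [hσ]
        rw [norm_smul, Real.norm_of_nonneg (inv_pos.2 hp).le, smul_smul]
        have : δ / (1 + (δ - ‖y‖)⁻¹ * ‖y‖) * (δ - ‖y‖)⁻¹ = 1 := by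
          have h3 : 1 + (δ - ‖y‖)⁻¹ * ‖y‖ = δ * (δ - ‖y‖)⁻¹ := by
            field_simp; ring
          rw [h3]
          field_simp
        rw [this, one_smul]
  rw [← h2]
  exact h1.image _ hc.continuousOn

/-- the link is connected -/
theorem isConnected_link {S : Set E} (hS : ConSphere 2 S) {x : E} (hx : x ∈ S) {ρ : ℝ} (hρ : 0 < ρ)
    (hC : ConeIn S x ρ) : IsConnected (S ∩ sphere x ρ) := by
  obtain ⟨H, U, N, κ, hfr, hU, h0, hκ0, hN, hNn⟩ := exists_chart_sphere hS hx
  have hrank : 1 < Module.rank ℝ H := by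
    rw [← Module.finrank_eq_rank, hfr]; norm_num
  -- a small ball
  have e1 : ∀ᶠ h in 𝓝 (0:H), h ∈ U ∧ ‖κ.toFun h - x‖ < ρ := by
    have hc : ContinuousAt κ.toFun 0 := κ.cont.continuousAt (hU.mem_nhds h0)
    have hc2 : ContinuousAt (fun h => ‖κ.toFun h - x‖) 0 := (hc.sub continuousAt_const).norm
    exact Filter.Eventually.and (hU.mem_nhds h0)
      (hc2.eventually_lt_const (by simpa [hκ0] using hρ))
  obtain ⟨δ, hδ, hb⟩ := Metric.nhds_basis_ball.mem_iff.1 e1
  set R : H → E := fun h => x + (ρ / ‖κ.toFun h - x‖) • (κ.toFun h - x) with hR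
  have hne : ∀ h ∈ ball (0:H) δ \ {0}, κ.toFun h - x ≠ 0 := by
    intro h hh h1
    apply hh.2
    rw [sub_eq_zero, ← hκ0] at h1
    exact κ.injOn (hb hh.1).1 h0 h1
  have hRc : ContinuousOn R (ball (0:H) δ \ {0}) := by
    have hc : ContinuousOn (fun h => κ.toFun h - x) (ball (0:H) δ \ {0}) :=
      (κ.cont.mono fun h hh => (hb hh.1).1).sub continuousOn_const
    refine continuousOn_const.add (ContinuousOn.smul (ContinuousOn.div continuousOn_const hc.norm
      fun h hh => ?_) hc)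
    exact norm_ne_zero_iff.2 (hne h hh)
  have himg : R '' (ball (0:H) δ \ {0}) = S ∩ sphere x ρ := by
    ext y
    constructor
    · rintro ⟨h, hh, rfl⟩
      have h1 := hne h hh
      have h2 : 0 < ‖κ.toFun h - x‖ := norm_pos_iff.2 h1
      have h3 : ‖(ρ / ‖κ.toFun h - x‖) • (κ.toFun h - x)‖ = ρ := by
        rw [norm_smul, Real.norm_of_nonneg (div_pos hρ h2).le]; field_simp
      refine ⟨?_, ?_⟩
      · have h4 := hC.iff (v := κ.toFun h - x) (hb hh.1).2.le (div_pos hρ h2) h3.le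
        rw [hR]
        simp only
        rw [h4, add_sub_cancel]
        exact hN (κ.mapsTo (hb hh.1).1)
      · rw [hR, mem_sphere, dist_eq_norm]
        simp only [add_sub_cancel_left]
        exact h3
    · rintro ⟨hyS, hy⟩
      rw [mem_sphere, dist_eq_norm] at hy
      -- the image of the ball is a neighbourhood of `x` in `S`
      have h1 : Tendsto (fun t : ℝ => x + t • (y - x)) (𝓝[Ioc 0 1] 0) (𝓝[S] x) := by
        apply tendsto_nhdsWithin_of_tendsto_nhds_of_eventually_within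
        · have hc : Continuous (fun t : ℝ => x + t • (y - x)) := by fun_prop
          have := hc.tendsto 0
          simp only [zero_smul, add_zero] at this
          exact this.mono_left nhdsWithin_le_nhds
        · filter_upwards [self_mem_nhdsWithin] with t ht
          rw [hC (y - x) hy.le t ht, add_sub_cancel]; exact hyS
      have h2 : ∀ᶠ z in 𝓝[S] x, z ∈ N ∧ κ.invFun z ∈ ball (0:H) δ := by
        have h3 : Tendsto κ.invFun (𝓝[N] x) (𝓝 (κ.invFun x)) := by
          have hxN : x ∈ N := hκ0 ▸ κ.mapsTo h0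
          exact κ.cont_inv x hxN
        have h4 : κ.invFun x = 0 := by rw [← hκ0, κ.left_inv h0]
        rw [h4] at h3
        have h5 : ∀ᶠ z in 𝓝[N] x, κ.invFun z ∈ ball (0:H) δ := h3.eventually (ball_mem_nhds _ hδ)
        have h6 : 𝓝[S] x ≤ 𝓝[N] x := by
          rw [← nhdsWithin_inter_of_mem hNn]
          exact nhdsWithin_mono _ inter_subset_left
        exact (show ∀ᶠ z in 𝓝[S] x, z ∈ N from hNn).and (h6 h5)
      have h7 : (𝓝[Ioc (0:ℝ) 1] 0).NeBot := by
        have : 𝓝[Ioc (0:ℝ) 1] 0 = 𝓝[>] 0 := nhdsWithin_Ioc_eq_nhdsGT one_pos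
        rw [this]; infer_instance
      obtain ⟨t, ⟨ht1, ht2⟩, ht⟩ := ((h1.eventually h2).and self_mem_nhdsWithin).exists
      refine ⟨κ.invFun (x + t • (y - x)), ⟨ht2, ?_⟩, ?_⟩
      · intro h8
        rw [mem_singleton_iff] at h8
        have h9 := κ.right_inv ht1
        rw [h8, hκ0] at h9
        have h10 : t • (y - x) = 0 := by
          have := h9.symm
          rwa [add_eq_left] at this
        rcases smul_eq_zero.1 h10 with h11 | h11
        · exact ht.1.ne' h11
        · rw [h11, norm_zero] at hy; exact hρ.ne hy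
      · rw [hR]
        simp only
        rw [κ.right_inv ht1, add_sub_cancel_left, norm_smul, Real.norm_of_nonneg ht.1.le, hy,
          smul_smul]
        have : ρ / (t * ρ) * t = 1 := by
          have := ht.1.ne'
          field_simp
        rw [this, one_smul, add_sub_cancel]
  rw [← himg]
  exact (exists_punctured hrank hδ).image _ hRc

/-- **The link of a conical 2-sphere is a conical circle.** -/
theorem conSphere_link (hE : NormCon E) {S : Set E} (hS : ConSphere 2 S) {x : E} (hx : x ∈ S)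
    {ρ : ℝ} (hρ : 0 < ρ) (hC : ConeIn S x ρ) : ConSphere 1 (S ∩ sphere x ρ) := by
  obtain ⟨H, U, N, κ, hfr, hU, h0, hκ0, hN, hNn⟩ := exists_chart_sphere hS hx
  have hSc : IsCompact S := by
    obtain ⟨ψ⟩ := hS
    exact ψ.symm.isCompact_right (isCompact_sphere _ _)
  -- a radius
  obtain ⟨ρ₁, hρ₁, hb⟩ : ∃ ρ₁ > 0, closedBall x ρ₁ ∩ S ⊆ N := by
    obtain ⟨ρ₁, hρ₁, hb⟩ := Metric.mem_nhdsWithin_iff.1 hNn
    exact ⟨ρ₁ / 2, by positivity, fun y hy =>
      hb ⟨closedBall_subset_ball (by linarith) hy.1, hy.2⟩⟩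
  -- the conical function
  have hdist : ConicalOn (fun y : E => ‖y - x‖) univ :=
    ConicalOn.comp hE ((conicalOn_id cu).sub (conicalOn_const x cu)) (mapsTo_univ _ _)
      (Continuous.continuousOn (by fun_prop))
  set u : H → ℝ := fun h => ‖κ.toFun h - x‖ with hu
  have hu1 : ConicalOn u U := hdist.comp κ.conical (mapsTo_univ _ _) κ.cont
  have huc : ContinuousOn u U := (κ.cont.sub continuousOn_const).norm
  obtain ⟨C, hCc, hgen⟩ := TR.exists_generic_circles hfr hU hu1 huc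
  obtain ⟨c, hcC, hc⟩ : ∃ c ∈ Cᶜ, c ∈ Ioo 0 (min ρ ρ₁) :=
    (Set.Countable.dense_compl ℝ hCc).exists_mem_open isOpen_Ioo ⟨min ρ ρ₁ / 2,
      by have := lt_min hρ hρ₁; constructor <;> linarith⟩
  have hcρ : c ≤ ρ := hc.2.le.trans (min_le_left _ _)
  have hcρ₁ : c ≤ ρ₁ := hc.2.le.trans (min_le_right _ _)
  -- the level set
  have hsub : S ∩ sphere x c ⊆ N := fun y hy =>
    hb ⟨closedBall_subset_closedBall hcρ₁ (sphere_subset_closedBall hy.2), hy.1⟩
  have hlev : {h | h ∈ U ∧ u h = c} = κ.invFun '' (S ∩ sphere x c) := by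
    ext h
    constructor
    · rintro ⟨hh, hhc⟩
      refine ⟨κ.toFun h, ⟨hN (κ.mapsTo hh), ?_⟩, κ.left_inv hh⟩
      rw [mem_sphere, dist_eq_norm]; exact hhc
    · rintro ⟨y, hy, rfl⟩
      refine ⟨κ.mapsTo_inv (hsub hy), ?_⟩
      rw [hu]
      simp only
      rw [κ.right_inv (hsub hy), ← dist_eq_norm]
      exact hy.2
  have hcomp : IsCompact {h | h ∈ U ∧ u h = c} := by
    rw [hlev]
    exact (hSc.inter_right isClosed_sphere).image_of_continuousOn (κ.cont_inv.mono hsub)
  obtain ⟨J, hJ, Cs, hCU, hCd, hCs⟩ := hgen c hcC hcomp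
  have hconn : IsConnected (S ∩ sphere x c) := isConnected_link hS hx hc.1 (hC.mono hcρ)
  have hconn' : IsConnected {h | h ∈ U ∧ u h = c} := by
    rw [hlev]; exact hconn.image _ (κ.cont_inv.mono hsub)
  have hcl : ∀ j, IsClosed (Cs j) := fun j => by
    obtain ⟨φ⟩ := hCs j
    exact (φ.symm.isCompact_right (isCompact_sphere _ _)).isClosed
  -- only one circle
  obtain ⟨h, hh⟩ := hconn'.nonempty
  have hh' := hh
  rw [← hCU, mem_iUnion] at hh'
  obtain ⟨j, hj⟩ := hh'
  have hall : {h | h ∈ U ∧ u h = c} = Cs j := by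
    apply Subset.antisymm
    · have hcl2 : IsClosed (⋃ i : {i // i ≠ j}, Cs i) := isClosed_iUnion_of_finite fun i => hcl i
      have hcov : {h | h ∈ U ∧ u h = c} ⊆ Cs j ∪ ⋃ i : {i // i ≠ j}, Cs i := by
        rw [← hCU]
        intro z hz
        obtain ⟨i, hi⟩ := mem_iUnion.1 hz
        by_cases hij : i = j
        · exact Or.inl (hij ▸ hi)
        · exact Or.inr (mem_iUnion.2 ⟨⟨i, hij⟩, hi⟩)
      have hdis : {h | h ∈ U ∧ u h = c} ∩ (Cs j ∩ ⋃ i : {i // i ≠ j}, Cs i) = ∅ := by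
        rw [eq_empty_iff_forall_notMem]
        rintro z ⟨-, hz1, hz2⟩
        obtain ⟨i, hi⟩ := mem_iUnion.1 hz2
        exact (hCd i j i.2).le_bot ⟨hi, hz1⟩
      have := isPreconnected_iff_subset_of_disjoint_closed.1 hconn'.isPreconnected _ _ (hcl j) hcl2
        hcov hdis
      rcases this with h1 | h1
      · exact h1
      · exfalso
        have h2 := h1 hh
        obtain ⟨i, hi⟩ := mem_iUnion.1 h2
        exact (hCd i j i.2).le_bot ⟨hi, hj⟩
    · rw [← hCU]; exact subset_iUnion Cs j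
  have hcirc : ConSphere 1 (S ∩ sphere x c) := by
    have h1 : ConSphere 1 {h | h ∈ U ∧ u h = c} := hall ▸ hCs j
    have h2 := conSphere_image h1 κ (fun h hh => hh.1)
    have h3 : κ.toFun '' {h | h ∈ U ∧ u h = c} = S ∩ sphere x c := by
      rw [hlev, image_image]
      have : ∀ y ∈ S ∩ sphere x c, κ.toFun (κ.invFun y) = y := fun y hy => κ.right_inv (hsub hy)
      rw [image_congr this, image_id']
    rwa [h3] at h2
  rw [← hC.image_sphere hc.1 hcρ]
  exact conSphere_image hcirc _ (subset_univ _)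

end P073.H248
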