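import Vale.Agent.P073.ALX.Spec
import Vale.Agent.P073.H248.Link

/-!
# P073, block ALX-RED (helper248): statements of the last step (boxes -> stack)
-/

open Set Metric Topology Filter

namespace P073.H248

open P073.ALX (P V slice AmbStd)

/-- the box around the vertex `(w₀, c)` -/
def bx (w₀ : P) (ρ c δ : ℝ) : Set V := closedBall w₀ ρ ×ˢ Icc (c - δ) (c + δ)

/-- inside the box, `S` is a cone with vertex `(w₀, c)` -/
def ConeBx (S : Set V) (w₀ : P) (ρ c δ : ℝ) : Prop :=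
  ∀ (w : P) (z s : ℝ), ‖w - w₀‖ ≤ ρ → |z - c| ≤ δ → 0 < s → s ≤ 1 →
    ((w₀ + s • (w - w₀), c + s * (z - c)) ∈ S ↔ (w, z) ∈ S)

/-- **(g2)** (helper894) the cone in the box is replaced by a disc `D` of the boundary of the box.
`γ = S ∩ frontier (bx ..)` is a conical circle; `D` is one of the two discs. -/
def SpecBox : Prop :=
  ∀ (S : Set V) (w₀ : P) (ρ c δ : ℝ), ConSphere 2 S → 0 < ρ → 0 < δ → (w₀, c) ∈ S →
    ConeBx S w₀ ρ c δ →
    ∃ D : Set V, D ⊆ frontier (bx w₀ ρ c δ) ∧ ConBall 2 D (S ∩ frontier (bx w₀ ρ c δ)) ∧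
      (∀ C : Set V, IsPreconnected C → C ⊆ frontier (bx w₀ ρ c δ) \ S → C ⊆ D ∨ Disjoint C D) ∧
      ConSphere 2 (S \ bx w₀ ρ c δ ∪ D) ∧
      (AmbStd (S \ bx w₀ ρ c δ ∪ D) → AmbStd S)

/-- **(g1)** (helper225) over an open interval where `S` is vertical, the slice is a finite disjoint
union of circles, with two directions at every point. -/
def SpecSlab : Prop :=
  ∀ (S : Set V) (a b : ℝ) (Γ : Set P), ConSphere 2 S → a < b →
    (∀ (w : P) (z : ℝ), a < z → z < b → ((w, z) ∈ S ↔ w ∈ Γ)) →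
    IsCompact Γ ∧ (∀ w ∈ Γ, LocConeAt Γ w) ∧ (∀ w ∈ Γ, (TR.dirs Γ w).ncard = 2) ∧
    ∃ F : Finset (Set P), (∀ c ∈ F, IsCircle c) ∧
      (∀ c ∈ F, ∀ c' ∈ F, c ≠ c' → Disjoint c c') ∧ Γ = ⋃ c ∈ F, c

end P073.H248
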