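import Vale.Agent.P073.H248.Final
import Vale.Agent.P073.H894.Box
import Vale.Agent.P073.H225.Slab
import Vale.Agent.P073.H240.Core

/-!
# P073, block ALX: **Alexander's theorem** for conical 2-spheres in space

Every conical 2-sphere is the image of the standard sphere under an ambient conical homeomorphism.
Inputs: helper894 (gluing lemma, box), helper225 (time splitting, slabs), helper107 (sweep, generic
direction), helper240 with helper487 and helper655 (stack theorem), helper248 (links, induction).
-/

open Set Metric Topology Filter

namespace P073.H248

open P073.ALX (P V slice AmbStd SpecALX SpecALX3)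

theorem specDirs : SpecDirs := fun _ _ _ _ _ hS hy hr h => H225.dirs_two_of_vertical hS hy hr h

/-- **Alexander's theorem**, in `(ℝ × ℝ) × ℝ` -/
theorem alexander : SpecALX :=
  specALX_of ALX.specBox H225.specSlab specDirs H240.specStack_share

/-- **Alexander's theorem**, in `Fin 3 → ℝ` -/
theorem alexander3 : SpecALX3 :=
  specALX3_of ALX.specBox H225.specSlab specDirs H240.specStack_share

end P073.H248
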