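import Vale.Agent.P073.H248.StkUp
import Vale.Agent.P073.H894.Column

/-!
# P073, block ALX-RED (helper248): replacing one box, geometry in the coordinates of the box
-/

open Set Metric Topology Filter

namespace P073.H248

open P073.ALX (P V slice AmbStd)
open P073.H240 (Share StackR Gam)

/-- the local statement on vertical points (helper225) -/
def SpecDirs : Prop :=
  ∀ (S : Set V) (Γ : Set P) (y : P) (c r : ℝ), ConSphere 2 S → (y, c) ∈ S → 0 < r →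
    (∀ (w : P) (z : ℝ), ‖w - y‖ < r → |z - c| < r → ((w, z) ∈ S ↔ w ∈ Γ)) →
    LocConeAt Γ y ∧ (TR.dirs Γ y).ncard = 2

theorem normCon_P : NormCon P := normCon_real.prod normCon_real

theorem mem_bx {w₀ : P} {ρ c δ : ℝ} {p : V} :
    p ∈ bx w₀ ρ c δ ↔ ‖p.1 - w₀‖ ≤ ρ ∧ |p.2 - c| ≤ δ := by
  rw [bx, mem_prod, mem_closedBall, dist_eq_norm, mem_Icc, abs_le]
  constructor
  · rintro ⟨h1, h2, h3⟩; exact ⟨h1, by linarith, by linarith⟩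
  · rintro ⟨h1, h2, h3⟩; exact ⟨h1, by linarith, by linarith⟩

theorem isClosed_bx (w₀ : P) (ρ c δ : ℝ) : IsClosed (bx w₀ ρ c δ) :=
  isClosed_closedBall.prod isClosed_Icc

theorem mem_frontier_bx {w₀ : P} {ρ c δ : ℝ} (hρ : 0 < ρ) {p : V} :
    p ∈ frontier (bx w₀ ρ c δ) ↔ ‖p.1 - w₀‖ ≤ ρ ∧ |p.2 - c| ≤ δ ∧ (ρ ≤ ‖p.1 - w₀‖ ∨ δ ≤ |p.2 - c|) := by
  rw [(isClosed_bx w₀ ρ c δ).frontier_eq, Set.mem_sdiff, mem_bx]
  have hint : p ∈ interior (bx w₀ ρ c δ) ↔ ‖p.1 - w₀‖ < ρ ∧ |p.2 - c| < δ := by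
    rw [bx, interior_prod_eq, interior_closedBall _ hρ.ne', interior_Icc, mem_prod, mem_ball,
      dist_eq_norm, mem_Ioo, abs_lt]
    constructor
    · rintro ⟨h1, h2, h3⟩; exact ⟨h1, by linarith, by linarith⟩
    · rintro ⟨h1, h2, h3⟩; exact ⟨h1, by linarith, by linarith⟩
  rw [hint, not_and_or, not_lt, not_lt]
  tauto

section one

variable {S : Set V} {w₀ : P} {ρ c δ : ℝ}

/-- near the vertical sides of the box the set is vertical -/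
theorem local_vert (hρ : 0 < ρ) (hδ : 0 < δ)
    (hv : ∀ (w : P) (z : ℝ), ρ ≤ ‖w - w₀‖ → |z - c| ≤ δ → ((w, z) ∈ S ↔ (w, c) ∈ S))
    (hc : ConeBx S w₀ ρ c δ) {y : P} (hy : ρ ≤ ‖y - w₀‖) :
    ∃ r > 0, ∀ (w : P) (z : ℝ), ‖w - y‖ < r → |z - c| < r → ((w, z) ∈ S ↔ (w, c) ∈ S) := by
  refine ⟨min (ρ / 2) (δ / 2), by positivity, fun w z hw hz => ?_⟩
  have hw1 : ‖w - y‖ < ρ / 2 := hw.trans_le (min_le_left _ _)
  have hz1 : |z - c| < δ / 2 := hz.trans_le (min_le_right _ _)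
  rcases le_or_gt ρ ‖w - w₀‖ with h | h
  · exact hv w z h (by linarith)
  have h1 : ρ / 2 < ‖w - w₀‖ := by
    have h2 : ‖y - w₀‖ ≤ ‖w - w₀‖ + ‖w - y‖ := by
      have h3 : y - w₀ = (w - w₀) - (w - y) := by abel
      rw [h3]; exact norm_sub_le _ _
    linarith
  set s : ℝ := ‖w - w₀‖ / ρ with hs
  have hs1 : s ≤ 1 := (div_le_one hρ).2 h.le
  have hs2 : 1 / 2 < s := by rw [hs, lt_div_iff₀ hρ]; linarith
  have hs0 : 0 < s := by linarith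
  have hn : ‖s⁻¹ • (w - w₀)‖ = ρ := by
    rw [norm_smul, norm_inv, Real.norm_of_nonneg hs0.le, hs]
    have : ‖w - w₀‖ ≠ 0 := by linarith
    field_simp
  have hzc : |c + s⁻¹ * (z - c) - c| ≤ δ := by
    rw [add_sub_cancel_left, abs_mul, abs_inv, abs_of_pos hs0, inv_mul_le_iff₀ hs0]
    nlinarith
  have e1 : w₀ + s • (w₀ + s⁻¹ • (w - w₀) - w₀) = w := by
    rw [add_sub_cancel_left, smul_smul, mul_inv_cancel₀ hs0.ne', one_smul, add_sub_cancel]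
  have e2 : c + s * (c + s⁻¹ * (z - c) - c) = z := by
    rw [add_sub_cancel_left, ← mul_assoc, mul_inv_cancel₀ hs0.ne', one_mul, add_sub_cancel]
  have a1 := hc (w₀ + s⁻¹ • (w - w₀)) (c + s⁻¹ * (z - c)) s
    (by rw [add_sub_cancel_left, hn]) hzc hs0 hs1
  rw [e1, e2] at a1
  have a2 := hc (w₀ + s⁻¹ • (w - w₀)) c s (by rw [add_sub_cancel_left, hn])
    (by rw [sub_self, abs_zero]; exact hδ.le) hs0 hs1
  rw [e1, sub_self, mul_zero, add_zero] at a2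
  rw [a1, a2]
  exact hv _ _ (by rw [add_sub_cancel_left, hn]) hzc

/-- the outward ray -/
theorem exists_ray_slice (hDirs : SpecDirs) (hS : ConSphere 2 S) (hρ : 0 < ρ) (hδ : 0 < δ)
    (hv : ∀ (w : P) (z : ℝ), ρ ≤ ‖w - w₀‖ → |z - c| ≤ δ → ((w, z) ∈ S ↔ (w, c) ∈ S))
    (hc : ConeBx S w₀ ρ c δ) {y : P} (hy : ρ ≤ ‖y - w₀‖) (hyS : (y, c) ∈ S) :
    ∃ v : P, v ≠ 0 ∧ ∀ t ∈ Icc (0:ℝ) 1, (y + t • v, c) ∈ S ∧ ρ ≤ ‖y + t • v - w₀‖ := by
  obtain ⟨r, hr, H⟩ := local_vert hρ hδ hv hc hy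
  obtain ⟨hloc, h2⟩ := hDirs S {w | (w, c) ∈ S} y c r hS hyS hr H
  refine exists_ray (N := {w | (w, c) ∈ S}) normCon_P hρ h2 hloc hyS hy fun w hw s hs hs1 => ?_
  have := hc w c s hw (by rw [sub_self, abs_zero]; exact hδ.le) hs hs1
  rwa [sub_self, mul_zero, add_zero] at this

/-- the new slices inside the box layer are constant -/
theorem new_slab (hρ : 0 < ρ)
    (hv : ∀ (w : P) (z : ℝ), ρ ≤ ‖w - w₀‖ → |z - c| ≤ δ → ((w, z) ∈ S ↔ (w, c) ∈ S))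
    {D : Set V} (hDf : D ⊆ frontier (bx w₀ ρ c δ)) (hSD : S ∩ frontier (bx w₀ ρ c δ) ⊆ D)
    (hDc : ∀ C : Set V, IsPreconnected C → C ⊆ frontier (bx w₀ ρ c δ) \ S → C ⊆ D ∨ Disjoint C D)
    {w : P} {z : ℝ} (hz : |z - c| < δ) :
    (w, z) ∈ S \ bx w₀ ρ c δ ∪ D ↔ (w, c) ∈ S \ bx w₀ ρ c δ ∪ D := by
  have hδ : 0 < δ := (abs_nonneg _).trans_lt hz
  have hcc : |c - c| < δ := by rw [sub_self, abs_zero]; exact hδ
  rcases lt_trichotomy ‖w - w₀‖ ρ with h | h | h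
  · -- inside
    have key : ∀ z : ℝ, |z - c| < δ → (w, z) ∉ S \ bx w₀ ρ c δ ∪ D := by
      rintro z hz (⟨-, h1⟩ | h1)
      · exact h1 (mem_bx.2 ⟨h.le, hz.le⟩)
      · rcases ((mem_frontier_bx hρ).1 (hDf h1)).2.2 with h2 | h2
        · exact absurd h2 (not_le.2 h)
        · exact absurd h2 (not_le.2 hz)
    exact ⟨fun h1 => (key z hz h1).elim, fun h1 => (key c hcc h1).elim⟩
  · -- on the lateral face
    have key : ∀ z : ℝ, |z - c| < δ → ((w, z) ∈ S \ bx w₀ ρ c δ ∪ D ↔ (w, z) ∈ D) := by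
      intro z hz
      constructor
      · rintro (⟨-, h1⟩ | h1)
        · exact (h1 (mem_bx.2 ⟨h.le, hz.le⟩)).elim
        · exact h1
      · exact Or.inr
    rw [key z hz, key c hcc]
    have hfr : ∀ z' ∈ Icc (c - δ) (c + δ), (w, z') ∈ frontier (bx w₀ ρ c δ) := fun z' hz' =>
      (mem_frontier_bx hρ).2 ⟨h.le, abs_le.2 ⟨by linarith [hz'.1], by linarith [hz'.2]⟩,
        Or.inl h.ge⟩
    have hzI : z ∈ Icc (c - δ) (c + δ) := by
      have := abs_lt.1 hz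
      exact ⟨by linarith, by linarith⟩
    have hcI : c ∈ Icc (c - δ) (c + δ) := ⟨by linarith, by linarith⟩
    by_cases hwS : (w, c) ∈ S
    · exact ⟨fun _ => hSD ⟨hwS, hfr c hcI⟩,
        fun _ => hSD ⟨(hv w z h.ge hz.le).2 hwS, hfr z hzI⟩⟩
    · have hC : IsPreconnected ((fun z' : ℝ => ((w, z') : V)) '' Icc (c - δ) (c + δ)) :=
        isPreconnected_Icc.image _ (Continuous.continuousOn (by fun_prop))
      have hCs : (fun z' : ℝ => ((w, z') : V)) '' Icc (c - δ) (c + δ) ⊆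
          frontier (bx w₀ ρ c δ) \ S := by
        rintro _ ⟨z', hz', rfl⟩
        refine ⟨hfr z' hz', fun h1 => hwS ?_⟩
        exact (hv w z' h.ge (abs_le.2 ⟨by linarith [hz'.1], by linarith [hz'.2]⟩)).1 h1
      rcases hDc _ hC hCs with h1 | h1
      · exact ⟨fun _ => h1 ⟨c, hcI, rfl⟩, fun _ => h1 ⟨z, hzI, rfl⟩⟩
      · exact ⟨fun h2 => (h1.le_bot ⟨⟨z, hzI, rfl⟩, h2⟩).elim,
          fun h2 => (h1.le_bot ⟨⟨c, hcI, rfl⟩, h2⟩).elim⟩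
  · -- outside
    have key : ∀ z : ℝ, |z - c| < δ → ((w, z) ∈ S \ bx w₀ ρ c δ ∪ D ↔ (w, z) ∈ S) := by
      intro z hz
      constructor
      · rintro (⟨h1, -⟩ | h1)
        · exact h1
        · exact absurd ((mem_frontier_bx hρ).1 (hDf h1)).1 (not_le.2 h)
      · intro h1
        exact Or.inl ⟨h1, fun h2 => absurd (mem_bx.1 h2).1 (not_le.2 h)⟩
    rw [key z hz, key c hcc]
    exact hv w z h.le hz.le

/-- share, in the coordinates of the box; `z` is one of the two heights `c ± δ` -/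
theorem new_share (hDirs : SpecDirs) (hS : ConSphere 2 S) (hρ : 0 < ρ) (hδ : 0 < δ)
    (hv : ∀ (w : P) (z : ℝ), ρ ≤ ‖w - w₀‖ → |z - c| ≤ δ → ((w, z) ∈ S ↔ (w, c) ∈ S))
    (hc : ConeBx S w₀ ρ c δ) {D : Set V} (hDf : D ⊆ frontier (bx w₀ ρ c δ))
    (hSD : S ∩ frontier (bx w₀ ρ c δ) ⊆ D) {z : ℝ} (hz : |z - c| ≤ δ) {y : P}
    (h1 : (y, z) ∈ S) (h2 : (y, c) ∈ S \ bx w₀ ρ c δ ∪ D) :
    ∃ v : P, v ≠ 0 ∧ ∀ t ∈ Icc (0:ℝ) 1, (y + t • v, z) ∈ S ∧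
      (y + t • v, c) ∈ S \ bx w₀ ρ c δ ∪ D := by
  have hcc : |c - c| < δ := by rw [sub_self, abs_zero]; exact hδ
  have hyρ : ρ ≤ ‖y - w₀‖ := by
    rcases h2 with ⟨-, h3⟩ | h3
    · by_contra h4
      push Not at h4
      exact h3 (mem_bx.2 ⟨h4.le, hcc.le⟩)
    · rcases ((mem_frontier_bx hρ).1 (hDf h3)).2.2 with h4 | h4
      · exact h4
      · exact absurd h4 (not_le.2 hcc)
  have hyc : (y, c) ∈ S := (hv y z hyρ hz).1 h1
  obtain ⟨v, hv0, hvt⟩ := exists_ray_slice hDirs hS hρ hδ hv hc hyρ hyc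
  refine ⟨v, hv0, fun t ht => ⟨(hv _ z (hvt t ht).2 hz).2 (hvt t ht).1, ?_⟩⟩
  rcases eq_or_lt_of_le (hvt t ht).2 with h3 | h3
  · refine Or.inr (hSD ⟨(hvt t ht).1, (mem_frontier_bx hρ).2 ⟨h3.ge, hcc.le, Or.inl h3.le⟩⟩)
  · exact Or.inl ⟨(hvt t ht).1, fun h4 => absurd (mem_bx.1 h4).1 (not_le.2 h3)⟩

end one

/-- transport of `Share` by a homeomorphism of the plane -/
theorem Share_image {X Y X' Y' : Set P} (g : ConHomeo (univ : Set P) (univ : Set P))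
    (hX : ∀ w, w ∈ X ↔ g.toFun w ∈ X') (hY : ∀ w, w ∈ Y ↔ g.toFun w ∈ Y')
    (h : ∀ y, y ∈ X → y ∈ Y → ∃ v : P, v ≠ 0 ∧ ∀ t ∈ Icc (0:ℝ) 1, y + t • v ∈ X ∧ y + t • v ∈ Y) :
    Share X' Y' := by
  rintro y' ⟨h1, h2⟩
  obtain ⟨y, rfl⟩ : ∃ y, g.toFun y = y' := ⟨g.invFun y', g.apply_inv y'⟩
  obtain ⟨v, hv0, hv⟩ := h y ((hX y).2 h1) ((hY y).2 h2)
  obtain ⟨r, hr, H⟩ := g.conical y (mem_univ _)
  have hn : 0 < ‖v‖ := norm_pos_iff.2 hv0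
  set κ : ℝ := min 1 (r / ‖v‖) with hκ
  have hκ0 : 0 < κ := by positivity
  have hκ1 : κ ≤ 1 := min_le_left _ _
  have hvr : ‖κ • v‖ ≤ r := by
    rw [norm_smul, Real.norm_of_nonneg hκ0.le]
    calc κ * ‖v‖ ≤ r / ‖v‖ * ‖v‖ := by gcongr; exact min_le_right _ _
      _ = r := div_mul_cancel₀ _ hn.ne'
  refine ⟨g.toFun (y + κ • v) - g.toFun y, ?_, fun t ht => ?_⟩
  · rw [sub_ne_zero]
    intro h3
    have h4 := g.injective h3
    rw [add_eq_left, smul_eq_zero] at h4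
    rcases h4 with h4 | h4
    · exact hκ0.ne' h4
    · exact hv0 h4
  · have h3 := (H (κ • v) hvr (mem_univ _) t ht).2
    rw [← h3, smul_smul]
    have h4 := hv (t * κ) ⟨mul_nonneg ht.1 hκ0.le, mul_le_one₀ ht.2 hκ0.le hκ1⟩
    exact ⟨(hX _).1 h4.1, (hY _).1 h4.2⟩

theorem ambStd_of_image {S : Set V} (Ψ : ConHomeo (univ : Set V) (univ : Set V))
    (h : AmbStd (Ψ.toFun '' S)) : AmbStd S := by
  obtain ⟨Φ, hΦ⟩ := h
  refine ⟨Ψ.trans Φ, ?_⟩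
  rw [ConHomeo.trans_toFun, image_comp]; exact hΦ

theorem ambStd_image {S : Set V} (Ψ : ConHomeo (univ : Set V) (univ : Set V)) (h : AmbStd S) :
    AmbStd (Ψ.toFun '' S) :=
  ambStd_of_image Ψ.symm (by
    rw [show Ψ.symm.toFun = Ψ.invFun from rfl, Ψ.image_inv_image]; exact h)

end P073.H248
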