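import Vale.Agent.P073.H248.BoxStep
import Vale.Agent.P073.ALXG.Sweep

/-!
# P073, block ALX-RED (helper248): induction over the layers, replacing one box after the other
-/

open Set Metric Topology Filter

namespace P073.H248

open P073.ALX (P V slice AmbStd)
open P073.H240 (Share StackR Gam)
open P073.ALXG (BoxStk)

/-- a slice over an open vertical slab shares rays with itself -/
theorem share_self (hSlab : SpecSlab) {S : Set V} (hS : ConSphere 2 S) {a b : ℝ} (hab : a < b)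
    {Γ : Set P} (hs : ∀ (w : P) (z : ℝ), a < z → z < b → ((w, z) ∈ S ↔ w ∈ Γ)) : Share Γ Γ := by
  obtain ⟨-, hloc, h2, -⟩ := hSlab S a b Γ hS hab hs
  rintro y ⟨hy, -⟩
  obtain ⟨u₁, u₂, -, hd⟩ := Set.ncard_eq_two.1 (h2 y hy)
  have hu : u₁ ∈ TR.dirs Γ y := hd ▸ Or.inl rfl
  obtain ⟨τ, hτ, H⟩ := exists_seg hy (hloc y hy) hu.2
  refine ⟨τ • u₁, smul_ne_zero hτ.ne' (TR.ne_zero_of_mem_dirs hu), fun t ht => ?_⟩
  rw [smul_smul]
  have h1 : t * τ ∈ Icc (0:ℝ) τ := ⟨mul_nonneg ht.1 hτ.le, mul_le_of_le_one_left hτ.le ht.2⟩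
  exact ⟨H _ h1, H _ h1⟩

theorem share_empty (Γ : Set P) : Share Γ ∅ := fun _ hy => hy.2.elim

/-- one vertical slab below -/
theorem vert_step (hSlab : SpecSlab) {S : Set V} (hS : ConSphere 2 S) {a b : ℝ} (hab : a < b)
    (h : ∀ (w : P) (z : ℝ), a ≤ z → z ≤ b → ((w, z) ∈ S ↔ (w, a) ∈ S)) {Γ : Set P}
    (H : StkUp S b Γ) (hΓ : Γ = slice S b ∨ Γ = ∅) : StkUp S a (slice S a) := by
  have hs : ∀ (w : P) (z : ℝ), a < z → z < b → ((w, z) ∈ S ↔ w ∈ slice S a) :=
    fun w z h1 h2 => h w z h1.le h2.le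
  refine StkUp.slab a b (slice S a) Γ hab hs ?_ H
  rcases hΓ with rfl | rfl
  · have : slice S b = slice S a := by
      ext w; exact h w b hab.le le_rfl
    rw [this]
    exact share_self hSlab hS hab hs
  · exact share_empty _

/-- **Replacing one box** -/
theorem box_step (hBox : SpecBox) (hSlab : SpecSlab) (hDirs : SpecDirs) {S : Set V}
    (hS : ConSphere 2 S) (g : ConHomeo (univ : Set P) (univ : Set P)) (w₀ : P) (c δ ρ μ : ℝ)
    (hδ : 0 < δ) (hρ : 0 < ρ) (hμ : 0 < μ)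
    (hv : ∀ (w : P) (z : ℝ), ρ ≤ ‖w - w₀‖ → |z - c| ≤ δ →
      ((g.toFun w, z) ∈ S ↔ (g.toFun w, c) ∈ S))
    (hc : ∀ (w : P) (z s : ℝ), ‖w - w₀‖ ≤ ρ → |z - c| ≤ δ → 0 < s → s ≤ 1 →
      ((g.toFun (w₀ + s • (w - w₀)), c + s * (z - c)) ∈ S ↔ (g.toFun w, z) ∈ S))
    (hlo : ∀ (w : P) (z : ℝ), c - δ - μ ≤ z → z ≤ c - δ → ((w, z) ∈ S ↔ (w, c - δ) ∈ S))
    (hhi : ∀ (w : P) (z : ℝ), c + δ ≤ z → z ≤ c + δ + μ → ((w, z) ∈ S ↔ (w, c + δ) ∈ S))
    {Γ : Set P} (H : StkUp S (c + δ + μ) Γ) (hΓ : Γ = slice S (c + δ + μ) ∨ Γ = ∅) :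
    ∃ S' : Set V, ConSphere 2 S' ∧ (AmbStd S' → AmbStd S) ∧
      (∀ p : V, p.2 < c - δ → (p ∈ S' ↔ p ∈ S)) ∧ StkUp S' (c - δ - μ) (slice S' (c - δ - μ)) := by
  -- the coordinates of the box
  set G := P073.prodId g with hG
  set S₁ : Set V := {p | (g.toFun p.1, p.2) ∈ S} with hS₁
  have himg : S₁ = G.symm.toFun '' S := by
    ext p
    rw [G.symm.mem_image_iff]
    rfl
  have hS₁s : ConSphere 2 S₁ := by rw [himg]; exact conSphere_image hS G.symm (subset_univ _)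
  have himg' : G.toFun '' S₁ = S := by
    rw [himg, show G.symm.toFun = G.invFun from rfl, G.image_image_inv]
  have hSc : IsClosed S := by
    obtain ⟨φ⟩ := hS
    exact (φ.symm.isCompact_right (isCompact_sphere _ _)).isClosed
  have hv₁ : ∀ (w : P) (z : ℝ), ρ ≤ ‖w - w₀‖ → |z - c| ≤ δ → ((w, z) ∈ S₁ ↔ (w, c) ∈ S₁) := hv
  have hc₁ : ConeBx S₁ w₀ ρ c δ := hc
  by_cases hap : (w₀, c) ∈ S₁
  swap
  · -- no point of `S` in the box: everything is vertical
    have hno : ∀ (w : P) (z : ℝ), ‖w - w₀‖ ≤ ρ → |z - c| ≤ δ → (g.toFun w, z) ∉ S := by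
      intro w z hw hz hmem
      apply hap
      have h1 : Tendsto (fun s : ℝ => ((g.toFun (w₀ + s • (w - w₀)), c + s * (z - c)) : V)) (𝓝[>] 0)
          (𝓝 (g.toFun w₀, c)) := by
        have hcont : Continuous
            (fun s : ℝ => ((g.toFun (w₀ + s • (w - w₀)), c + s * (z - c)) : V)) :=
          (g.continuous.comp (by fun_prop)).prodMk (by fun_prop)
        have := hcont.tendsto 0
        simp only [zero_smul, add_zero, zero_mul] at this
        exact this.mono_left nhdsWithin_le_nhds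
      refine hSc.mem_of_tendsto h1 ?_
      filter_upwards [Ioc_mem_nhdsGT one_pos] with s hs
      exact (hc w z s hw hz hs.1 hs.2).2 hmem
    have hmid : ∀ (w : P) (z : ℝ), |z - c| ≤ δ → ((w, z) ∈ S ↔ (w, c) ∈ S) := by
      intro w z hz
      obtain ⟨y, rfl⟩ : ∃ y, g.toFun y = w := ⟨g.invFun w, g.apply_inv w⟩
      rcases le_or_gt ρ ‖y - w₀‖ with h | h
      · exact hv y z h hz
      · exact ⟨fun h1 => (hno y z h.le hz h1).elim, fun h1 =>
          (hno y c h.le (by rw [sub_self, abs_zero]; exact hδ.le) h1).elim⟩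
    have hb1 : |c - δ - c| ≤ δ := by rw [sub_sub_cancel_left, abs_neg, abs_of_pos hδ]
    have hb2 : |c + δ - c| ≤ δ := by rw [add_sub_cancel_left, abs_of_pos hδ]
    have hall : ∀ (w : P) (z : ℝ), c - δ - μ ≤ z → z ≤ c + δ + μ → ((w, z) ∈ S ↔ (w, c) ∈ S) := by
      intro w z h1 h2
      rcases le_or_gt z (c - δ) with h3 | h3
      · exact (hlo w z h1 h3).trans (hmid w _ hb1)
      rcases le_or_gt z (c + δ) with h4 | h4
      · exact hmid w z (abs_le.2 ⟨by linarith, by linarith⟩)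
      · exact (hhi w z h4.le h2).trans (hmid w _ hb2)
    refine ⟨S, hS, id, fun p _ => Iff.rfl, ?_⟩
    refine vert_step hSlab hS (b := c + δ + μ) (by linarith) (fun w z h1 h2 => ?_) H hΓ
    rw [hall w z h1 h2, hall w (c - δ - μ) le_rfl (by linarith)]
  -- the box is replaced
  obtain ⟨D, hDf, hDb, hDc, hD2, hDstd⟩ := hBox S₁ w₀ ρ c δ hS₁s hρ hδ hap hc₁
  have hSD : S₁ ∩ frontier (bx w₀ ρ c δ) ⊆ D := hDb.1
  set S₁' : Set V := S₁ \ bx w₀ ρ c δ ∪ D with hS₁'
  set S' : Set V := G.toFun '' S₁' with hS'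
  have hmem' : ∀ (w : P) (z : ℝ), (g.toFun w, z) ∈ S' ↔ (w, z) ∈ S₁' := by
    intro w z
    have : ((g.toFun w, z) : V) = G.toFun (w, z) := rfl
    rw [this, hS', G.apply_mem_image_iff]
  -- off the layer nothing changes
  have hoff : ∀ p : V, δ < |p.2 - c| → (p ∈ S' ↔ p ∈ S) := by
    rintro ⟨w, z⟩ hz
    obtain ⟨y, rfl⟩ : ∃ y, g.toFun y = w := ⟨g.invFun w, g.apply_inv w⟩
    rw [hmem']
    constructor
    · rintro (⟨h1, -⟩ | h1)
      · exact h1
      · exact absurd ((mem_frontier_bx hρ).1 (hDf h1)).2.1 (not_le.2 hz)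
    · intro h1
      exact Or.inl ⟨h1, fun h2 => absurd (mem_bx.1 h2).2 (not_le.2 hz)⟩
  have hlow : ∀ p : V, p.2 < c - δ → (p ∈ S' ↔ p ∈ S) := fun p hp => hoff p (by
    rw [abs_of_neg (by linarith)]; linarith)
  have hup : ∀ p : V, c + δ < p.2 → (p ∈ S' ↔ p ∈ S) := fun p hp => hoff p (by
    rw [abs_of_pos (by linarith)]; linarith)
  have hS's : ConSphere 2 S' := conSphere_image hD2 G (subset_univ _)
  refine ⟨S', hS's, fun h => ?_, hlow, ?_⟩
  · have h1 : AmbStd S₁' := ambStd_of_image G h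
    have h2 : AmbStd S₁ := hDstd h1
    rw [← himg']
    exact ambStd_image G h2
  -- the three slabs
  set Γm : Set P := slice S' c with hΓm
  have hzm : |c - δ - c| ≤ δ := by rw [sub_sub_cancel_left, abs_neg, abs_of_pos hδ]
  have hzp : |c + δ - c| ≤ δ := by rw [add_sub_cancel_left, abs_of_pos hδ]
  have hsh : ∀ z : ℝ, |z - c| ≤ δ → ∀ y : P, (y, z) ∈ S₁ → (y, c) ∈ S₁' →
      ∃ v : P, v ≠ 0 ∧ ∀ t ∈ Icc (0:ℝ) 1, (y + t • v, z) ∈ S₁ ∧ (y + t • v, c) ∈ S₁' :=
    fun z hz y h1 h2 => new_share hDirs hS₁s hρ hδ hv₁ hc₁ hDf hSD hz h1 h2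
  have e1 : slice S' (c - δ - μ) = slice S (c - δ) := by
    ext w
    show (w, c - δ - μ) ∈ S' ↔ (w, c - δ) ∈ S
    rw [hlow _ (show c - δ - μ < c - δ by linarith)]
    exact hlo w _ le_rfl (by linarith)
  rw [e1]
  refine StkUp.slab (c - δ - μ) (c - δ) _ Γm (by linarith) (fun w z h1 h2 => ?_) ?_ ?_
  · rw [hlow (w, z) h2]
    exact hlo w z h1.le h2.le
  · refine Share_image g (X := {y | (y, c - δ) ∈ S₁}) (Y := {y | (y, c) ∈ S₁'})
      (fun w => Iff.rfl) (fun w => (hmem' w c).symm) (fun y h1 h2 => hsh _ hzm y h1 h2)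
  refine StkUp.slab (c - δ) (c + δ) Γm (slice S (c + δ)) (by linarith) (fun w z h1 h2 => ?_) ?_ ?_
  · obtain ⟨y, rfl⟩ : ∃ y, g.toFun y = w := ⟨g.invFun w, g.apply_inv w⟩
    show _ ↔ (g.toFun y, c) ∈ S'
    rw [hmem', hmem']
    exact new_slab hρ hv₁ hDf hSD hDc (abs_lt.2 ⟨by linarith, by linarith⟩)
  · refine Share_image g (X := {y | (y, c) ∈ S₁'}) (Y := {y | (y, c + δ) ∈ S₁})
      (fun w => (hmem' w c).symm) (fun w => Iff.rfl) (fun y h1 h2 => ?_)
    obtain ⟨v, hv0, hvt⟩ := hsh _ hzp y h2 h1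
    exact ⟨v, hv0, fun t ht => ⟨(hvt t ht).2, (hvt t ht).1⟩⟩
  have hs3 : ∀ (w : P) (z : ℝ), c + δ < z → z < c + δ + μ → ((w, z) ∈ S ↔ w ∈ slice S (c + δ)) :=
    fun w z h1 h2 => hhi w z h1.le h2.le
  refine StkUp.slab (c + δ) (c + δ + μ) (slice S (c + δ)) Γ (by linarith) (fun w z h1 h2 => ?_) ?_
    (H.congr fun p hp => (hup p (by linarith)).symm)
  · rw [hup (w, z) h1]
    exact hs3 w z h1 h2
  · rcases hΓ with rfl | rfl
    · have : slice S (c + δ + μ) = slice S (c + δ) := by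
        ext w; exact hhi w _ (by linarith) le_rfl
      rw [this]
      exact share_self hSlab hS (by linarith) hs3
    · exact share_empty _

/-- **Induction over the layers** -/
theorem ambStd_of_boxStk (hBox : SpecBox) (hSlab : SpecSlab) (hDirs : SpecDirs)
    (hST : H240.SpecStack Share) {S₀ : Set V} {t : ℝ} (h : BoxStk S₀ t) :
    ∀ S : Set V, (∀ p : V, p.2 ≤ t → (p ∈ S ↔ p ∈ S₀)) → ConSphere 2 S → ∀ Γ : Set P,
      StkUp S t Γ → (Γ = slice S t ∨ Γ = ∅) → AmbStd S := by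
  induction h with
  | base t h =>
    intro S he hS Γ H _
    obtain ⟨s, T, hT⟩ := H.exists_stack hS hSlab (fun p hp => by
      by_contra hlt
      push Not at hlt
      exact absurd (h p ((he p hlt.le).1 hp)) (not_lt.2 hlt.le))
    exact hST s T S hT
  | vert a b hab h Hb ih =>
    intro S he hS Γ H hΓ
    have h' : ∀ (w : P) (z : ℝ), a ≤ z → z ≤ b → ((w, z) ∈ S ↔ (w, a) ∈ S) := by
      intro w z h1 h2
      rw [he (w, z) h2, he (w, a) hab]
      exact h w z h1 h2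
    rcases eq_or_lt_of_le hab with rfl | hlt
    · exact ih S he hS Γ H hΓ
    · exact ih S (fun p hp => he p (hp.trans hab)) hS _ (vert_step hSlab hS hlt h' H hΓ)
        (Or.inl rfl)
  | box g w₀ c δ ρ μ hδ hρ hμ hv hc hlo hhi Hb ih =>
    intro S he hS Γ H hΓ
    have hle : ∀ z : ℝ, |z - c| ≤ δ → z ≤ c + δ + μ := fun z hz => by
      have := (abs_le.1 hz).2; linarith
    obtain ⟨S', hS', hstd, hag, hst⟩ := box_step hBox hSlab hDirs hS g w₀ c δ ρ μ hδ hρ hμ
      (fun w z hw hz => by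
        rw [he (g.toFun w, z) (hle z hz), he (g.toFun w, c) (by show c ≤ c + δ + μ; linarith)]
        exact hv w z hw hz)
      (fun w z s hw hz hs hs1 => by
        have h1 : c + s * (z - c) ≤ c + δ + μ := by
          have h2 := (abs_le.1 hz).2
          have : s * (z - c) ≤ δ := by
            rcases le_total 0 (z - c) with h3 | h3
            · nlinarith
            · nlinarith [mul_nonneg hs.le (neg_nonneg.2 h3)]
          linarith
        rw [he (g.toFun w, z) (hle z hz), he (_, c + s * (z - c)) h1]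
        exact hc w z s hw hz hs hs1)
      (fun w z h1 h2 => by
        rw [he (w, z) (by show z ≤ c + δ + μ; linarith),
          he (w, c - δ) (by show c - δ ≤ c + δ + μ; linarith)]
        exact hlo w z h1 h2)
      (fun w z h1 h2 => by
        rw [he (w, z) h2, he (w, c + δ) (by show c + δ ≤ c + δ + μ; linarith)]
        exact hhi w z h1 h2) H hΓ
    refine hstd (ih S' (fun p hp => ?_) hS' _ hst (Or.inl rfl))
    rw [hag p (by linarith)]
    exact he p (by linarith)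

end P073.H248
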