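import Vale.Agent.P073.SCH.Amb

/-!
# P073, block ALX-RED (helper248): normed spaces whose norm is conical, local charts of spheres
-/

open Set Metric Topology Filter

namespace P073.H248

variable {E F G : Type*} [NormedAddCommGroup E] [NormedSpace ℝ E]
  [NormedAddCommGroup F] [NormedSpace ℝ F] [NormedAddCommGroup G] [NormedSpace ℝ G]

theorem cu : ConicalSet (univ : Set E) := IsOpen.conicalSet isOpen_univ

/-- the norm is a conical function (polyhedral norm) -/
def NormCon (E : Type*) [NormedAddCommGroup E] [NormedSpace ℝ E] : Prop :=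
  ConicalOn (fun x : E => ‖x‖) univ

theorem normCon_real : NormCon ℝ := by
  have h1 : ConicalOn (fun x : ℝ => max x (-x)) univ :=
    (conicalOn_id cu).rmax ((conicalOn_id cu).neg)
      continuous_id.continuousOn continuous_neg.continuousOn
  exact h1.congr fun x _ => by rw [Real.norm_eq_abs, abs_eq_max_neg]

theorem NormCon.prod (hE : NormCon E) (hF : NormCon F) : NormCon (E × F) := by
  have h1 : ConicalOn (fun x : E × F => ‖x.1‖) univ :=
    ConicalOn.comp hE (conicalOn_linear (LinearMap.fst ℝ E F) cu)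
      (mapsTo_univ _ _) continuous_fst.continuousOn
  have h2 : ConicalOn (fun x : E × F => ‖x.2‖) univ :=
    ConicalOn.comp hF (conicalOn_linear (LinearMap.snd ℝ E F) cu)
      (mapsTo_univ _ _) continuous_snd.continuousOn
  exact h1.rmax h2 (by fun_prop) (by fun_prop)

theorem normCon_pi (n : ℕ) : NormCon (Fin n → ℝ) := by
  induction n with
  | zero =>
    refine (conicalOn_const (0:ℝ) cu).congr fun x _ => ?_
    have : x = 0 := Subsingleton.elim _ _
    simp [this]
  | succ n ih =>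
    have h1 : ConicalOn (fun x : Fin (n+1) → ℝ => ‖x 0‖) univ :=
      ConicalOn.comp normCon_real (conicalOn_linear
        (LinearMap.proj (R := ℝ) (φ := fun _ : Fin (n+1) => ℝ) 0) cu)
        (mapsTo_univ _ _) (continuous_apply 0).continuousOn
    have h2 : ConicalOn (fun x : Fin (n+1) → ℝ => ‖Fin.tail x‖) univ :=
      ConicalOn.comp ih (conicalOn_linear
        (LinearMap.pi fun i : Fin n => LinearMap.proj (R := ℝ) (φ := fun _ : Fin (n+1) => ℝ) i.succ)
        cu)
        (mapsTo_univ _ _) (Continuous.continuousOn (by fun_prop))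
    have h3 := h1.rmax h2 (Continuous.continuousOn (by fun_prop)) (by
      apply Continuous.continuousOn
      apply Continuous.norm
      exact continuous_pi fun i => continuous_apply _)
    refine h3.congr fun x _ => ?_
    apply le_antisymm
    · rw [pi_norm_le_iff_of_nonneg (le_max_of_le_left (norm_nonneg _))]
      intro i
      refine Fin.cases (le_max_left _ _) (fun j => ?_) i
      exact (norm_le_pi_norm (Fin.tail x) j).trans (le_max_right _ _)
    · apply max_le (norm_le_pi_norm x 0)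
      rw [pi_norm_le_iff_of_nonneg (norm_nonneg _)]
      intro i
      exact norm_le_pi_norm x i.succ

/-- moving in the radial direction: `‖θ + v + s θ‖ = ‖θ + v‖ + s ‖θ‖` for small `v`, `s` -/
theorem NormCon.radial (hE : NormCon E) (θ : E) : ∃ r > 0, ∀ v : E, ‖v‖ ≤ r → ∀ s : ℝ, |s| ≤ 1/2 →
    ‖θ + v + s • θ‖ = ‖θ + v‖ + s * ‖θ‖ := by
  obtain ⟨r, hr, H⟩ := hE θ (mem_univ _)
  have H' : ∀ v : E, ‖v‖ ≤ r → ∀ t ∈ Icc (0:ℝ) 1, ‖θ + t • v‖ = ‖θ‖ + t * (‖θ + v‖ - ‖θ‖) :=
    fun v hv t ht => (H v hv (mem_univ _) t ht).2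
  have key : ∀ v : E, ‖v‖ ≤ r / 2 → ∀ a : ℝ, 1/2 ≤ a →
      a * ‖θ + a⁻¹ • v‖ = a * ‖θ‖ + (‖θ + v‖ - ‖θ‖) := by
    intro v hv a ha
    have ha0 : 0 < a := by linarith
    rcases le_or_gt 1 a with h1 | h1
    · have ht : a⁻¹ ∈ Icc (0:ℝ) 1 := ⟨by positivity, inv_le_one_of_one_le₀ h1⟩
      rw [H' v (hv.trans (by linarith)) _ ht]
      field_simp
    · have hv2 : ‖a⁻¹ • v‖ ≤ r := by
        rw [norm_smul, Real.norm_of_nonneg (by positivity)]
        have : a⁻¹ ≤ 2 := by
          rw [inv_le_comm₀ ha0 two_pos]; linarith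
        calc a⁻¹ * ‖v‖ ≤ 2 * (r / 2) := by gcongr
          _ = r := by ring
      have h2 := H' (a⁻¹ • v) hv2 a ⟨ha0.le, h1.le⟩
      rw [smul_smul, mul_inv_cancel₀ ha0.ne', one_smul] at h2
      linarith
  refine ⟨r / 2, by positivity, fun v hv s hs => ?_⟩
  have ha : 1/2 ≤ 1 + s := by
    have := (abs_le.1 hs).1; linarith
  have ha0 : 0 < 1 + s := by linarith
  have h1 : θ + v + s • θ = (1 + s) • (θ + (1 + s)⁻¹ • v) := by
    rw [smul_add, smul_smul, mul_inv_cancel₀ ha0.ne', one_smul]; module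
  rw [h1, norm_smul, Real.norm_of_nonneg ha0.le, key v hv _ ha]
  ring

/-- **Local chart of the unit sphere** of a polyhedral norm: the sphere is near each point conically
homeomorphic to an open subset of a hyperplane. -/
theorem NormCon.exists_chart [FiniteDimensional ℝ E] (hE : NormCon E) {θ : E} (hθ : ‖θ‖ = 1) :
    ∃ (H : Submodule ℝ E) (U : Set H) (V : Set E) (κ : ConHomeo U V),
      Module.finrank ℝ H + 1 = Module.finrank ℝ E ∧ IsOpen U ∧ 0 ∈ U ∧ κ.toFun 0 = θ ∧
      V ⊆ sphere 0 1 ∧ V ∈ 𝓝[sphere 0 1] θ := by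
  obtain ⟨r, hr, Hr⟩ := hE.radial θ
  have hθ0 : θ ≠ 0 := by
    intro h; rw [h, norm_zero] at hθ; exact zero_ne_one hθ
  obtain ⟨H, hH⟩ := Submodule.exists_isCompl (ℝ ∙ θ)
  -- the two projections
  set π : E →ₗ[ℝ] H := H.projectionOnto (ℝ ∙ θ) hH.symm with hπ
  have hπH : ∀ h : H, π h = h := fun h => Submodule.projectionOnto_apply_left hH.symm h
  have hπθ : ∀ s : ℝ, π (s • θ) = 0 := by
    intro s
    rw [hπ, Submodule.projectionOnto_apply_eq_zero_iff]
    exact Submodule.smul_mem _ _ (Submodule.mem_span_singleton_self θ)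
  -- decomposition
  have hdec : ∀ y : E, ∃ s : ℝ, y = π y + s • θ := by
    intro y
    have h1 : y - π y ∈ (ℝ ∙ θ) := by
      rw [← Submodule.projectionOnto_apply_eq_zero_iff hH.symm, ← hπ, map_sub, hπH, sub_self]
    obtain ⟨s, hs⟩ := Submodule.mem_span_singleton.1 h1
    exact ⟨s, by rw [hs]; abel⟩
  have hπc : Continuous π := π.continuous_of_finiteDimensional
  set δ : ℝ := min r (1/2) with hδ
  have hδ0 : 0 < δ := lt_min hr (by norm_num)
  set U : Set H := ball 0 δ with hU
  set κ : H → E := fun h => θ + h - (‖θ + (h:E)‖ - 1) • θ with hκ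
  have hm : ∀ h : H, |‖θ + (h:E)‖ - 1| ≤ ‖h‖ := by
    intro h
    have h1 := abs_norm_sub_norm_le (θ + (h:E)) θ
    rw [hθ, add_sub_cancel_left] at h1
    exact h1
  have hκU : ∀ h ∈ U, ‖κ h‖ = 1 := by
    intro h hh
    rw [hU, mem_ball_zero_iff] at hh
    have h1 : κ h = θ + (h:E) + (-(‖θ + (h:E)‖ - 1)) • θ := by rw [hκ]; module
    rw [h1, Hr h (hh.le.trans (min_le_left _ _)) _ (by
      rw [abs_neg]; exact (hm h).trans (hh.le.trans (min_le_right _ _))), hθ]
    ring
  have hπκ : ∀ h : H, π (κ h) = h := by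
    intro h
    have h1 : κ h = (h:E) + (1 - (‖θ + (h:E)‖ - 1)) • θ := by rw [hκ]; module
    rw [h1, map_add, hπH, hπθ, add_zero]
  have hcoe : ConicalOn (fun h : H => (h:E)) univ := conicalOn_linear H.subtype cu
  have hκ1 : ConicalOn (fun h : H => θ + (h:E)) univ := (conicalOn_const θ cu).add hcoe
  have hκ2 : ConicalOn (fun h : H => ‖θ + (h:E)‖) univ :=
    ConicalOn.comp hE hκ1 (mapsTo_univ _ _) (Continuous.continuousOn (by fun_prop))
  have hκ3 : ConicalOn (fun h : H => (‖θ + (h:E)‖ - 1) • θ) univ :=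
    (hκ2.sub (conicalOn_const (1:ℝ) cu)).linear_comp (LinearMap.toSpanSingleton ℝ E θ)
  have hκ4 : ConicalOn κ univ := hκ1.sub hκ3
  have hκc : Continuous κ := by rw [hκ]; fun_prop
  have hU' : ConicalSet U := IsOpen.conicalSet isOpen_ball
  refine ⟨H, U, κ '' U, ⟨κ, π, mapsTo_image _ _, ?_, ?_, ?_, hκc.continuousOn,
    hπc.continuousOn, hκ4.mono hU' (subset_univ _)⟩, ?_, isOpen_ball, mem_ball_self hδ0, ?_, ?_, ?_⟩
  · rintro _ ⟨h, hh, rfl⟩
    rw [hπκ]; exact hh
  · intro h _; exact hπκ h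
  · rintro _ ⟨h, hh, rfl⟩
    rw [hπκ]
  · have h1 := Submodule.finrank_add_eq_of_isCompl hH
    rw [finrank_span_singleton hθ0] at h1
    omega
  · show κ 0 = θ
    simp [hκ, hθ]
  · rintro _ ⟨h, hh, rfl⟩
    rw [mem_sphere_zero_iff_norm]; exact hκU h hh
  · -- neighbourhood
    have e1 : ∀ᶠ y in 𝓝 θ, ‖π y‖ < δ := by
      have : ContinuousAt (fun y => ‖π y‖) θ := (hπc.norm).continuousAt
      apply this.eventually_lt_const
      have := hπθ 1
      rw [one_smul] at this
      show ‖π θ‖ < δ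
      rw [this, norm_zero]; exact hδ0
    have e2 : ∀ᶠ y in 𝓝 θ, ‖y - θ - π y‖ < 1/2 := by
      have : ContinuousAt (fun y => ‖y - θ - π y‖) θ := by
        apply Continuous.continuousAt; fun_prop
      apply this.eventually_lt_const
      have := hπθ 1
      rw [one_smul] at this
      simp [this]
    filter_upwards [nhdsWithin_le_nhds e1, nhdsWithin_le_nhds e2, self_mem_nhdsWithin] with y h1 h2 h3
    rw [mem_sphere_zero_iff_norm] at h3
    obtain ⟨s, hs⟩ := hdec y
    refine ⟨π y, by rw [hU, mem_ball_zero_iff]; exact h1, ?_⟩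
    have h4 : y = θ + (π y : E) + (s - 1) • θ := by
      conv_lhs => rw [hs]
      module
    have h5 : |s - 1| ≤ 1/2 := by
      have h6 : y - θ - π y = (s - 1) • θ := by
        nth_rewrite 1 [hs]
        module
      rw [h6, norm_smul, hθ, mul_one] at h2
      exact h2.le
    have h7 : ‖y‖ = ‖θ + (π y : E)‖ + (s - 1) * ‖θ‖ := by
      conv_lhs => rw [h4]
      exact Hr _ (h1.le.trans (min_le_left _ _)) _ h5
    rw [h3, hθ, mul_one] at h7
    have h8 : ‖θ + (π y : E)‖ - 1 = -(s - 1) := by linarith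
    show θ + (π y : E) - (‖θ + (π y : E)‖ - 1) • θ = y
    rw [h8]
    conv_rhs => rw [h4]
    module

end P073.H248
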