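import Vale.Agent.P073.H248.Spec

/-!
# P073, block ALX-RED (helper248): a ray outside the box
-/

open Set Metric Topology Filter

namespace P073.H248

variable {E F G : Type*} [NormedAddCommGroup E] [NormedSpace ℝ E]
  [NormedAddCommGroup F] [NormedSpace ℝ F] [NormedAddCommGroup G] [NormedSpace ℝ G]

/-- points on a ray in the tangent cone of a local cone -/
theorem exists_seg {N : Set E} {y u : E} (hy : y ∈ N) (hloc : LocConeAt N y) (hu : u ∈ TR.tc N y) :
    ∃ τ₀ > 0, ∀ t ∈ Icc (0:ℝ) τ₀, y + t • u ∈ N := by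
  obtain ⟨r, hr, H⟩ := hloc
  by_cases hu0 : u = 0
  · exact ⟨1, one_pos, fun t _ => by rw [hu0, smul_zero, add_zero]; exact hy⟩
  have hn : 0 < ‖u‖ := norm_pos_iff.2 hu0
  refine ⟨r / ‖u‖, by positivity, fun t ht => ?_⟩
  rcases eq_or_lt_of_le ht.1 with h | h
  · rw [← h, zero_smul, add_zero]; exact hy
  · refine (TR.mem_tc_iff H h ?_).1 hu
    rw [norm_smul, Real.norm_of_nonneg h.le]
    have := ht.2
    rwa [le_div_iff₀ hn] at this

/-- **A ray outside the ball.** `N` has exactly two directions at `y`, is a cone from `w₀` in the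
ball of radius `ρ`; then `N` contains a segment starting at `y` outside the open ball. -/
theorem exists_ray {N : Set E} (hE : NormCon E) {w₀ y : E} {ρ : ℝ} (hρ : 0 < ρ)
    (h2 : (TR.dirs N y).ncard = 2) (hloc : LocConeAt N y) (hy : y ∈ N) (hyρ : ρ ≤ ‖y - w₀‖)
    (hcone : ∀ w : E, ‖w - w₀‖ ≤ ρ → ∀ s : ℝ, 0 < s → s ≤ 1 → (w₀ + s • (w - w₀) ∈ N ↔ w ∈ N)) :
    ∃ v : E, v ≠ 0 ∧ ∀ t ∈ Icc (0:ℝ) 1, y + t • v ∈ N ∧ ρ ≤ ‖y + t • v - w₀‖ := by
  obtain ⟨u₁, u₂, h12, hd⟩ := Set.ncard_eq_two.1 h2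
  -- it is enough to find a direction along which the norm does not decrease
  suffices H : ∃ u ∈ TR.dirs N y, ∃ τ > 0, ∀ t ∈ Icc (0:ℝ) τ, ρ ≤ ‖y + t • u - w₀‖ by
    obtain ⟨u, hu, τ, hτ, hτ'⟩ := H
    obtain ⟨τ₀, hτ₀, h0⟩ := exists_seg hy hloc hu.2
    have hm : 0 < min τ τ₀ := lt_min hτ hτ₀
    refine ⟨min τ τ₀ • u, smul_ne_zero hm.ne' (TR.ne_zero_of_mem_dirs hu), fun t ht => ?_⟩
    rw [smul_smul]
    have h1 : 0 ≤ t * min τ τ₀ := mul_nonneg ht.1 hm.le
    have h3 : t * min τ τ₀ ≤ min τ τ₀ := mul_le_of_le_one_left hm.le ht.2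
    exact ⟨h0 _ ⟨h1, h3.trans (min_le_right _ _)⟩, hτ' _ ⟨h1, h3.trans (min_le_left _ _)⟩⟩
  rcases lt_or_eq_of_le hyρ with hlt | heq
  · -- outside the closed ball
    refine ⟨u₁, hd ▸ Or.inl rfl, ?_⟩
    have hc : ContinuousAt (fun t : ℝ => ‖y + t • u₁ - w₀‖) 0 := by
      apply Continuous.continuousAt; fun_prop
    have h3 := hc.eventually_const_lt (u := ρ) (by simpa using hlt)
    obtain ⟨τ, hτ, hb⟩ := Metric.nhds_basis_closedBall.mem_iff.1 h3
    exact ⟨τ, hτ, fun t ht => (hb (by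
      rw [mem_closedBall, Real.dist_eq, sub_zero, abs_of_nonneg ht.1]; exact ht.2) : ρ < _).le⟩
  by_contra hno
  push Not at hno
  -- directional derivative of the norm
  have hcon : ConicalOn (fun w : E => ‖w - w₀‖) univ :=
    ConicalOn.comp hE ((conicalOn_id cu).sub (conicalOn_const w₀ cu)) (mapsTo_univ _ _)
      (Continuous.continuousOn (by fun_prop))
  obtain ⟨r, hr, Hr⟩ := hcon y (mem_univ _)
  have hder : ∀ v : E, ‖v‖ ≤ r → ∀ t ∈ Icc (0:ℝ) 1,
      ‖y + t • v - w₀‖ = ρ + t * (‖y + v - w₀‖ - ρ) := by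
    intro v hv t ht
    have := (Hr v hv (mem_univ _) t ht).2
    simpa [← heq] using this
  -- along `u₁`, `u₂` the norm decreases
  have hdec : ∀ u ∈ TR.dirs N y, ∃ τ > 0, ∀ t ∈ Ioc (0:ℝ) τ, ‖y + t • u - w₀‖ < ρ := by
    intro u hu
    have hu1 : ‖u‖ = 1 := hu.1
    obtain ⟨t, ht, hlt⟩ := hno u hu r hr
    have hv : ‖r • u‖ ≤ r := by rw [norm_smul, hu1, mul_one, Real.norm_of_nonneg hr.le]
    have h3 := hder (r • u) hv (t / r) ⟨div_nonneg ht.1 hr.le, (div_le_one hr).2 ht.2⟩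
    rw [smul_smul, div_mul_cancel₀ _ hr.ne'] at h3
    have h4 : ‖y + r • u - w₀‖ - ρ < 0 := by
      by_contra h5
      push Not at h5
      have : 0 ≤ t / r * (‖y + r • u - w₀‖ - ρ) := mul_nonneg (div_nonneg ht.1 hr.le) h5
      linarith
    refine ⟨r, hr, fun s hs => ?_⟩
    have h5 := hder (r • u) hv (s / r) ⟨div_nonneg hs.1.le hr.le, (div_le_one hr).2 hs.2⟩
    rw [smul_smul, div_mul_cancel₀ _ hr.ne'] at h5
    rw [h5]
    have : s / r * (‖y + r • u - w₀‖ - ρ) < 0 := mul_neg_of_pos_of_neg (div_pos hs.1 hr) h4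
    linarith
  -- the radial direction
  set e : E := ρ⁻¹ • (w₀ - y) with he
  have he1 : ‖e‖ = 1 := by
    rw [he, norm_smul, norm_inv, Real.norm_of_nonneg hρ.le, ← norm_neg, neg_sub, ← heq,
      inv_mul_cancel₀ hρ.ne']
  have hyw : ‖y - w₀‖ ≤ ρ := heq.ge
  have hetc : e ∈ TR.tc N y := by
    filter_upwards [Ioc_mem_nhdsGT (half_pos hρ)] with t ht
    have hs : 0 < 1 - t / ρ := by
      have : t / ρ ≤ 1/2 := by rw [div_le_iff₀ hρ]; linarith [ht.2]
      linarith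
    have hs1 : 1 - t / ρ ≤ 1 := by
      have : 0 ≤ t / ρ := div_nonneg ht.1.le hρ.le
      linarith
    have h3 := (hcone y hyw (1 - t / ρ) hs hs1).2 hy
    have h4 : w₀ + (1 - t / ρ) • (y - w₀) = y + t • e := by
      rw [he, smul_smul, sub_smul, one_smul]
      rw [show t / ρ = t * ρ⁻¹ from div_eq_mul_inv _ _]
      module
    rwa [h4] at h3
  have hed : e ∈ TR.dirs N y := ⟨he1, hetc⟩
  -- another direction
  obtain ⟨u, hu, hue⟩ : ∃ u ∈ TR.dirs N y, u ≠ e := by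
    by_cases h : u₁ = e
    · exact ⟨u₂, hd ▸ Or.inr rfl, fun h' => h12 (h.trans h'.symm)⟩
    · exact ⟨u₁, hd ▸ Or.inl rfl, h⟩
  have hu1 : ‖u‖ = 1 := hu.1
  obtain ⟨τ, hτ, hτ'⟩ := hdec u hu
  obtain ⟨τ₀, hτ₀, h0⟩ := exists_seg hy hloc hu.2
  -- `u ≠ -e`
  have hune : u ≠ -e := by
    intro h
    have h3 := hτ' τ ⟨hτ, le_rfl⟩
    have h4 : y + τ • u - w₀ = (1 + τ / ρ) • (y - w₀) := by
      rw [h, he, smul_neg, smul_smul, div_eq_mul_inv]; module
    rw [h4, norm_smul, Real.norm_of_nonneg (by positivity), ← heq, add_mul, one_mul,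
      div_mul_cancel₀ _ hρ.ne'] at h3
    linarith
  -- `u + e` is a direction too
  have hsum : u + e ∈ TR.tc N y := by
    have hm : 0 < min (min τ τ₀ / 2) (ρ / 2) := by positivity
    filter_upwards [Ioc_mem_nhdsGT hm] with t ht
    have ht1 : t ≤ min τ τ₀ / 2 := ht.2.trans (min_le_left _ _)
    have ht2 : t ≤ ρ / 2 := ht.2.trans (min_le_right _ _)
    have hs : 1 / 2 ≤ 1 - t / ρ := by
      have : t / ρ ≤ 1/2 := by rw [div_le_iff₀ hρ]; linarith
      linarith
    have hs0 : 0 < 1 - t / ρ := by linarith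
    have hs1 : 1 - t / ρ ≤ 1 := by
      have : 0 ≤ t / ρ := div_nonneg ht.1.le hρ.le
      linarith
    set t' : ℝ := t / (1 - t / ρ) with ht'
    have ht'0 : 0 < t' := div_pos ht.1 hs0
    have ht'1 : t' ≤ min τ τ₀ := by
      rw [ht', div_le_iff₀ hs0]
      have : 0 < min τ τ₀ := lt_min hτ hτ₀
      nlinarith
    have h3 : y + t' • u ∈ N := h0 t' ⟨ht'0.le, ht'1.trans (min_le_right _ _)⟩
    have h4 : ‖y + t' • u - w₀‖ ≤ ρ := (hτ' t' ⟨ht'0, ht'1.trans (min_le_left _ _)⟩).le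
    have h5 := (hcone _ h4 (1 - t / ρ) hs0 hs1).2 h3
    have h6 : w₀ + (1 - t / ρ) • (y + t' • u - w₀) = y + t • (u + e) := by
      have h7 : (1 - t / ρ) * t' = t := by rw [ht', mul_comm, div_mul_cancel₀ _ hs0.ne']
      have h8 : (1 - t / ρ) • (y + t' • u - w₀) = (1 - t / ρ) • (y - w₀) + t • u := by
        rw [show y + t' • u - w₀ = (y - w₀) + t' • u by abel, smul_add, smul_smul, h7]
      rw [h8, he, smul_add, smul_smul, div_eq_mul_inv]; module
    rwa [h6] at h5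
  have hune0 : u + e ≠ 0 := fun h => hune (eq_neg_of_add_eq_zero_left h)
  have hsd := TR.normalize_mem_dirs hsum hune0
  have hpar : ∀ a b : E, ‖a‖ = 1 → ‖b‖ = 1 → ∀ k : ℝ, a = k • b → a = b ∨ a = -b := by
    intro a b ha hb k hk
    have h3 : |k| = 1 := by
      have := ha
      rw [hk, norm_smul, hb, mul_one, Real.norm_eq_abs] at this
      exact this
    rcases abs_eq (zero_le_one) |>.1 h3 with h4 | h4
    · left; rw [hk, h4, one_smul]
    · right; rw [hk, h4, neg_smul, one_smul]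
  set n : ℝ := ‖u + e‖ with hn
  have hn0 : n ≠ 0 := norm_ne_zero_iff.2 hune0
  have d1 : n⁻¹ • (u + e) ≠ u := by
    intro h
    have h3 : e = (n - 1) • u := by
      have : u + e = n • u := by
        calc u + e = n • (n⁻¹ • (u + e)) := by rw [smul_smul, mul_inv_cancel₀ hn0, one_smul]
          _ = n • u := by rw [h]
      rw [sub_smul, one_smul, ← this]; abel
    rcases hpar e u he1 hu1 _ h3 with h4 | h4
    · exact hue h4.symm
    · exact hune (by rw [h4, neg_neg])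
  have d2 : n⁻¹ • (u + e) ≠ e := by
    intro h
    have h3 : u = (n - 1) • e := by
      have : u + e = n • e := by
        calc u + e = n • (n⁻¹ • (u + e)) := by rw [smul_smul, mul_inv_cancel₀ hn0, one_smul]
          _ = n • e := by rw [h]
      rw [sub_smul, one_smul, ← this]; abel
    rcases hpar u e hu1 he1 _ h3 with h4 | h4
    · exact hue h4
    · exact hune h4
  -- three different directions
  rw [hd] at hu hed hsd
  simp only [mem_insert_iff, mem_singleton_iff] at hu hed hsd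
  rcases hu with h1 | h1 <;> rcases hed with h3 | h3 <;> rcases hsd with h4 | h4
  · exact hue (h1.trans h3.symm)
  · exact hue (h1.trans h3.symm)
  · exact d1 (h4.trans h1.symm)
  · exact d2 (h4.trans h3.symm)
  · exact d2 (h4.trans h3.symm)
  · exact d1 (h4.trans h1.symm)
  · exact hue (h1.trans h3.symm)
  · exact hue (h1.trans h3.symm)

end P073.H248
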