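import Vale.Agent.P073.H248.Share
import Vale.Agent.P073.H240.Stack
import Vale.Agent.P073.H339.Glue2

/-!
# P073, block ALX-RED (helper248): layered spheres, conversion to the class `StackR Share`
-/

open Set Metric Topology Filter

namespace P073.H248

open P073.ALX (P V slice AmbStd)
open P073.H240 (Share StackR Gam)

/-- above the height `t` the set `S` consists of finitely many vertical slabs; `Γ` is the slice just
above `t` -/
inductive StkUp (S : Set V) : ℝ → Set P → Prop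
  | top (t : ℝ) (h : ∀ p ∈ S, p.2 ≤ t) : StkUp S t ∅
  | slab (a b : ℝ) (Γ Γ' : Set P) (hab : a < b)
      (hs : ∀ (w : P) (z : ℝ), a < z → z < b → ((w, z) ∈ S ↔ w ∈ Γ)) (hsh : Share Γ Γ')
      (H : StkUp S b Γ') : StkUp S a Γ

theorem StkUp.congr {S S' : Set V} {t : ℝ} {Γ : Set P} (h : StkUp S t Γ)
    (he : ∀ p : V, t < p.2 → (p ∈ S ↔ p ∈ S')) : StkUp S' t Γ := by
  induction h with
  | top t h =>
    refine StkUp.top t fun p hp => ?_
    by_contra hlt
    push Not at hlt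
    exact absurd (h p ((he p hlt).2 hp)) (not_le.2 hlt)
  | slab a b Γ Γ' hab hs hsh H ih =>
    refine StkUp.slab a b Γ Γ' hab (fun w z h1 h2 => ?_) hsh (ih fun p hp => he p (hab.trans hp))
    rw [← he (w, z) h1]
    exact hs w z h1 h2

/-- a segment inside a finite disjoint union of closed sets stays in one of them -/
theorem seg_mem {E : Type*} [NormedAddCommGroup E] [NormedSpace ℝ E] {F : Set (Set E)}
    (hF : F.Finite) (hcl : ∀ c ∈ F, IsClosed c) (hd : ∀ c ∈ F, ∀ c' ∈ F, c ≠ c' → Disjoint c c')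
    {c : Set E} (hc : c ∈ F) {y v : E} (hy : y ∈ c)
    (h : ∀ t ∈ Icc (0:ℝ) 1, ∃ c' ∈ F, y + t • v ∈ c') : ∀ t ∈ Icc (0:ℝ) 1, y + t • v ∈ c := by
  have hpc : IsPreconnected ((fun t : ℝ => y + t • v) '' Icc 0 1) :=
    isPreconnected_Icc.image _ (Continuous.continuousOn (by fun_prop))
  have hcl2 : IsClosed (⋃ c' ∈ F \ {c}, c') :=
    (hF.subset sdiff_subset).isClosed_biUnion fun c' hc' => hcl c' hc'.1
  have hcov : (fun t : ℝ => y + t • v) '' Icc 0 1 ⊆ c ∪ ⋃ c' ∈ F \ {c}, c' := by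
    rintro _ ⟨t, ht, rfl⟩
    obtain ⟨c', hc', h1⟩ := h t ht
    by_cases hcc : c' = c
    · exact Or.inl (hcc ▸ h1)
    · exact Or.inr (mem_iUnion₂.2 ⟨c', ⟨hc', hcc⟩, h1⟩)
  have hdis : (fun t : ℝ => y + t • v) '' Icc 0 1 ∩ (c ∩ ⋃ c' ∈ F \ {c}, c') = ∅ := by
    rw [eq_empty_iff_forall_notMem]
    rintro z ⟨-, hz1, hz2⟩
    obtain ⟨c', hc', h1⟩ := mem_iUnion₂.1 hz2
    exact (hd c' hc'.1 c hc hc'.2).le_bot ⟨h1, hz1⟩
  rcases isPreconnected_iff_subset_of_disjoint_closed.1 hpc _ _ (hcl c hc) hcl2 hcov hdis with h1 | h1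
  · exact fun t ht => h1 ⟨t, ht, rfl⟩
  · exfalso
    have h2 : y ∈ ⋃ c' ∈ F \ {c}, c' := h1 ⟨0, ⟨le_rfl, zero_le_one⟩, by simp⟩
    obtain ⟨c', hc', h3⟩ := mem_iUnion₂.1 h2
    exact (hd c' hc'.1 c hc hc'.2).le_bot ⟨h3, hy⟩

theorem isCircle_isClosed {E : Type*} [NormedAddCommGroup E] [NormedSpace ℝ E] {C : Set E}
    (h : IsCircle C) : IsClosed C := by
  obtain ⟨φ⟩ := h
  exact (φ.isCompact_right (isCompact_sphere _ _)).isClosed

/-- the data of a stack, without the sphere -/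
structure PreStack (s : ℕ → ℝ) (T : Finset (ℕ × Set P)) (S : Set V) : Prop where
  mono : StrictMono s
  pos : ∀ w ∈ T, w.1 ≠ 0
  circ : ∀ w ∈ T, IsCircle w.2
  disj : ∀ w ∈ T, ∀ w' ∈ T, w.1 = w'.1 → w.2 ≠ w'.2 → Disjoint w.2 w'.2
  up : ∀ x ∈ S, ∃ n, x.2 < s n
  slab : ∀ (j : ℕ) (x : V), s j < x.2 → x.2 < s (j + 1) → (x ∈ S ↔ x.1 ∈ Gam T (j + 1))
  rel : ∀ w ∈ T, ∀ w' ∈ T, w'.1 = w.1 + 1 → Share w.2 w'.2

theorem StkUp.exists_pre {S : Set V} {a : ℝ} {Γ : Set P} (h : StkUp S a Γ) (hS : ConSphere 2 S)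
    (hSlab : SpecSlab) : ∃ (s : ℕ → ℝ) (T : Finset (ℕ × Set P)), PreStack s T S ∧ s 0 = a ∧
      Gam T 1 = Γ := by
  classical
  induction h with
  | top t h =>
    refine ⟨fun n => t + n, ∅, ⟨fun m n hmn => ?_, ?_, ?_, ?_, fun x hx => ⟨1, ?_⟩, ?_, ?_⟩, ?_, ?_⟩
    · show t + (m:ℝ) < t + (n:ℝ)
      have : (m:ℝ) < (n:ℝ) := by exact_mod_cast hmn
      linarith
    · intro w hw; exact absurd hw (Finset.notMem_empty _)
    · intro w hw; exact absurd hw (Finset.notMem_empty _)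
    · intro w hw; exact absurd hw (Finset.notMem_empty _)
    · have := h x hx
      show x.2 < t + ((1:ℕ):ℝ)
      push_cast; linarith
    · intro j x h1 h2
      have h1' : t + (j:ℝ) < x.2 := h1
      constructor
      · intro hx
        have h3 := h x hx
        have : (0:ℝ) ≤ j := Nat.cast_nonneg j
        linarith
      · rintro ⟨w, hw, -⟩
        exact absurd hw (Finset.notMem_empty _)
    · intro w hw; exact absurd hw (Finset.notMem_empty _)
    · simp
    · ext p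
      simp only [mem_empty_iff_false, iff_false]
      rintro ⟨w, hw, -⟩
      exact absurd hw (Finset.notMem_empty _)
  | slab a b Γ Γ' hab hs hsh H ih =>
    obtain ⟨s', T', hp, hs0, hG⟩ := ih
    obtain ⟨-, -, -, F, hFc, hFd, hFU⟩ := hSlab S a b Γ hS hab hs
    set s : ℕ → ℝ := fun n => Nat.casesOn n a s' with hsdef
    have hs_zero : s 0 = a := rfl
    have hs_succ : ∀ n, s (n + 1) = s' n := fun n => rfl
    set T : Finset (ℕ × Set P) := T'.image (fun w => (w.1 + 1, w.2)) ∪ F.image (fun c => (1, c))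
      with hT
    have hmem : ∀ w : ℕ × Set P, w ∈ T ↔ (∃ w' ∈ T', w = (w'.1 + 1, w'.2)) ∨ ∃ c ∈ F, w = (1, c) := by
      intro w
      simp only [hT, Finset.mem_union, Finset.mem_image]
      constructor
      · rintro (⟨w', h1, h2⟩ | ⟨c, h1, h2⟩)
        · exact Or.inl ⟨w', h1, h2.symm⟩
        · exact Or.inr ⟨c, h1, h2.symm⟩
      · rintro (⟨w', h1, h2⟩ | ⟨c, h1, h2⟩)
        · exact Or.inl ⟨w', h1, h2.symm⟩
        · exact Or.inr ⟨c, h1, h2.symm⟩
    have hG1 : Gam T 1 = Γ := by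
      ext p
      constructor
      · rintro ⟨w, hw, hw1, hpw⟩
        rcases (hmem w).1 hw with ⟨w', h1, rfl⟩ | ⟨c, h1, rfl⟩
        · simp only [Nat.add_eq_right] at hw1
          exact absurd hw1 (hp.pos w' h1)
        · rw [hFU]; exact mem_iUnion₂.2 ⟨c, h1, hpw⟩
      · intro hpΓ
        rw [hFU] at hpΓ
        obtain ⟨c, h1, h2⟩ := mem_iUnion₂.1 hpΓ
        exact ⟨(1, c), (hmem _).2 (Or.inr ⟨c, h1, rfl⟩), rfl, h2⟩
    have hG2 : ∀ j, Gam T (j + 2) = Gam T' (j + 1) := by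
      intro j
      ext p
      constructor
      · rintro ⟨w, hw, hw1, hpw⟩
        rcases (hmem w).1 hw with ⟨w', h1, rfl⟩ | ⟨c, h1, rfl⟩
        · exact ⟨w', h1, by simpa using hw1, hpw⟩
        · simp at hw1
      · rintro ⟨w, hw, hw1, hpw⟩
        exact ⟨(w.1 + 1, w.2), (hmem _).2 (Or.inl ⟨w, hw, rfl⟩), by simp [hw1], hpw⟩
    refine ⟨s, T, ⟨?_, ?_, ?_, ?_, ?_, ?_, ?_⟩, hs_zero, hG1⟩
    · refine strictMono_nat_of_lt_succ fun n => ?_
      cases n with
      | zero => rw [hs_zero, hs_succ, hs0]; exact hab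
      | succ n => rw [hs_succ, hs_succ]; exact hp.mono (Nat.lt_succ_self n)
    · intro w hw
      rcases (hmem w).1 hw with ⟨w', h1, rfl⟩ | ⟨c, h1, rfl⟩
      · simp
      · simp
    · intro w hw
      rcases (hmem w).1 hw with ⟨w', h1, rfl⟩ | ⟨c, h1, rfl⟩
      · exact hp.circ w' h1
      · exact hFc c h1
    · intro w hw w' hw' h1 h2
      rcases (hmem w).1 hw with ⟨u, hu, rfl⟩ | ⟨c, hc, rfl⟩ <;>
      rcases (hmem w').1 hw' with ⟨u', hu', rfl⟩ | ⟨c', hc', rfl⟩
      · exact hp.disj u hu u' hu' (by simpa using h1) h2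
      · simp only [Nat.add_eq_right] at h1
        exact absurd h1 (hp.pos u hu)
      · simp only [Nat.right_eq_add] at h1
        exact absurd h1 (hp.pos u' hu')
      · exact hFd c hc c' hc' h2
    · intro x hx
      obtain ⟨n, hn⟩ := hp.up x hx
      exact ⟨n + 1, hn⟩
    · intro j x h1 h2
      cases j with
      | zero =>
        rw [hs_zero] at h1
        rw [hs_succ, hs0] at h2
        rw [zero_add, hG1]
        exact hs x.1 x.2 h1 h2
      | succ j =>
        rw [hs_succ] at h1 h2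
        rw [hG2]
        exact hp.slab j x h1 h2
    · intro w hw w' hw' h1
      rcases (hmem w).1 hw with ⟨u, hu, rfl⟩ | ⟨c, hc, rfl⟩ <;>
      rcases (hmem w').1 hw' with ⟨u', hu', rfl⟩ | ⟨c', hc', rfl⟩
      · exact hp.rel u hu u' hu' (by simpa using h1)
      · simp at h1
      · -- the interesting case
        have hu1 : u'.1 = 1 := by simpa using h1
        intro y hy
        have hyΓ : y ∈ Γ := by rw [hFU]; exact mem_iUnion₂.2 ⟨c, hc, hy.1⟩
        have hyΓ' : y ∈ Γ' := by rw [← hG]; exact ⟨u', hu', hu1, hy.2⟩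
        obtain ⟨v, hv0, hv⟩ := hsh y ⟨hyΓ, hyΓ'⟩
        refine ⟨v, hv0, fun t ht => ⟨?_, ?_⟩⟩
        · refine seg_mem (F := (F : Set (Set P))) F.finite_toSet
            (fun c hc => isCircle_isClosed (hFc c hc)) (fun c hc c' hc' => hFd c hc c' hc')
            hc hy.1 (fun t ht => ?_) t ht
          have := (hv t ht).1
          rw [hFU] at this
          obtain ⟨c', h3, h4⟩ := mem_iUnion₂.1 this
          exact ⟨c', h3, h4⟩
        · refine seg_mem (F := {c' | (1, c') ∈ T'}) ?_ (fun c hc => isCircle_isClosed (hp.circ _ hc))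
            (fun c hc c' hc' hcc => hp.disj _ hc _ hc' rfl hcc) ?_ hy.2 (fun t ht => ?_) t ht
          · refine (T'.finite_toSet.image Prod.snd).subset ?_
            intro c' hc'
            exact ⟨(1, c'), hc', rfl⟩
          · show (1, u'.2) ∈ T'
            rw [← hu1]; exact hu'
          · have := (hv t ht).2
            rw [← hG] at this
            obtain ⟨w, h3, h4, h5⟩ := this
            refine ⟨w.2, ?_, h5⟩
            show (1, w.2) ∈ T'
            rw [← h4]; exact h3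
      · simp at h1

/-- **conversion** -/
theorem StkUp.exists_stack {S : Set V} {a : ℝ} {Γ : Set P} (h : StkUp S a Γ) (hS : ConSphere 2 S)
    (hSlab : SpecSlab) (hlow : ∀ p ∈ S, a ≤ p.2) :
    ∃ (s : ℕ → ℝ) (T : Finset (ℕ × Set P)), StackR Share s T S := by
  obtain ⟨s, T, hp, hs0, -⟩ := h.exists_pre hS hSlab
  exact ⟨s, T, hp.mono, hS, hp.pos, hp.circ, hp.disj, fun x hx => hs0 ▸ hlow x hx, hp.up, hp.slab,
    hp.rel⟩

end P073.H248
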